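import Mathlib.Analysis.SpecialFunctions.SmoothTransition
import Mathlib.MeasureTheory.Integral.IntervalIntegral.FundThmCalculus
import Mathlib.Analysis.Calculus.Deriv.MeanValue
import Mathlib.Analysis.Calculus.ContDiff.Deriv
import Mathlib.Analysis.SpecialFunctions.ExpDeriv
import Mathlib.Analysis.SpecialFunctions.Log.Basic
import Mathlib.Analysis.Complex.ExponentialBounds

/-!
# The profile of the filling metric

Metric `dρ² + (α ρ e^u)² dx² + (e^v)² dy²`, flat near the axis `ρ = 0`, equal to the cusp metric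
`dr² + e^(2 s r) (dx² + dy²)`, `r = ρ - R`, for `ρ ≥ R`, scalar curvature at least `-6`.
-/

open Set Filter Topology Real
open scoped ContDiff

noncomputable section

namespace Vale.Agent.P216FI

/-- primitive vanishing at `0` -/
def prim (f : ℝ → ℝ) (x : ℝ) : ℝ := ∫ t in (0 : ℝ)..x, f t

theorem hasDerivAt_prim {f : ℝ → ℝ} (hf : Continuous f) (x : ℝ) : HasDerivAt (prim f) (f x) x :=
  (hf.integral_hasStrictDerivAt 0 x).hasDerivAt

theorem deriv_prim {f : ℝ → ℝ} (hf : Continuous f) : deriv (prim f) = f :=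
  funext fun x => (hasDerivAt_prim hf x).deriv

theorem contDiff_prim {f : ℝ → ℝ} (hf : ContDiff ℝ ∞ f) : ContDiff ℝ ∞ (prim f) := by
  rw [contDiff_infty_iff_deriv, deriv_prim hf.continuous]
  exact ⟨fun x => (hasDerivAt_prim hf.continuous x).differentiableAt, hf⟩

theorem prim_zero (f : ℝ → ℝ) : prim f 0 = 0 := by simp [prim]

theorem prim_eq_zero {f : ℝ → ℝ} {d : ℝ} (hd : 0 ≤ d) (h : ∀ t ≤ d, f t = 0) {x : ℝ} (hx : x ≤ d) :
    prim f x = 0 := by
  unfold prim
  rw [intervalIntegral.integral_congr (g := fun _ => (0 : ℝ))]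
  · simp
  · intro t ht
    exact h t ((le_max_iff.1 ht.2).elim (fun h => h.trans hd) fun h => h.trans hx)

/-- a function with constant derivative on a half line is affine there -/
theorem affine_Ici {f : ℝ → ℝ} {c a : ℝ} (hf : Differentiable ℝ f) (h : ∀ t, a ≤ t → deriv f t = c)
    {x : ℝ} (hx : a ≤ x) : f x = f a + c * (x - a) := by
  have h1 : ∀ t ∈ uIcc a x, HasDerivAt f c t := fun t ht => by
    rw [uIcc_of_le hx] at ht
    exact h t ht.1 ▸ (hf t).hasDerivAt
  have h2 := intervalIntegral.integral_eq_sub_of_hasDerivAt (f := f) (f' := fun _ => c) h1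
    intervalIntegrable_const
  simp only [intervalIntegral.integral_const, smul_eq_mul] at h2
  linarith

theorem affine_Iic {f : ℝ → ℝ} {c a : ℝ} (hf : Differentiable ℝ f) (h : ∀ t, t ≤ a → deriv f t = c)
    {x : ℝ} (hx : x ≤ a) : f x = f a + c * (x - a) := by
  have h1 : ∀ t ∈ uIcc x a, HasDerivAt f c t := fun t ht => by
    rw [uIcc_of_le hx] at ht
    exact h t ht.2 ▸ (hf t).hasDerivAt
  have h2 := intervalIntegral.integral_eq_sub_of_hasDerivAt (f := f) (f' := fun _ => c) h1
    intervalIntegrable_const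
  simp only [intervalIntegral.integral_const, smul_eq_mul] at h2
  linarith

/-- monotone cutoff, `0` left of `a`, `1` right of `b` -/
def cut (a b t : ℝ) : ℝ := smoothTransition ((t - a) / (b - a))

theorem cut_contDiff (a b : ℝ) : ContDiff ℝ ∞ (cut a b) :=
  smoothTransition.contDiff.comp ((contDiff_id.sub contDiff_const).div_const _)

theorem cut_nonneg (a b t : ℝ) : 0 ≤ cut a b t := smoothTransition.nonneg _

theorem cut_le_one (a b t : ℝ) : cut a b t ≤ 1 := smoothTransition.le_one _

theorem cut_zero {a b t : ℝ} (hab : a < b) (ht : t ≤ a) : cut a b t = 0 :=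
  smoothTransition.zero_of_nonpos (div_nonpos_of_nonpos_of_nonneg (by linarith) (by linarith))

theorem cut_one {a b t : ℝ} (hab : a < b) (ht : b ≤ t) : cut a b t = 1 :=
  smoothTransition.one_of_one_le (by rw [le_div_iff₀ (by linarith)]; linarith)

theorem cut_mono {a b : ℝ} (hab : a < b) : Monotone (cut a b) := fun _ _ h =>
  smoothTransition.monotone (div_le_div_of_nonneg_right (by linarith) (by linarith))

theorem cut_deriv_nonneg {a b : ℝ} (hab : a < b) (t : ℝ) : 0 ≤ deriv (cut a b) t :=
  (cut_mono hab).deriv_nonneg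

theorem cut_deriv_zero {a b t : ℝ} (hab : a < b) (ht : b < t) : deriv (cut a b) t = 0 := by
  have : cut a b =ᶠ[𝓝 t] fun _ => 1 := by
    filter_upwards [Ioi_mem_nhds ht] with z h using cut_one hab (le_of_lt h)
  rw [this.deriv_eq, deriv_const]

/-- the profile of a filling -/
structure Prof (α s R : ℝ) (u v : ℝ → ℝ) : Prop where
  R_pos : 0 < R
  su : ContDiff ℝ ∞ u
  sv : ContDiff ℝ ∞ v
  flat : ∃ d, 0 < d ∧ ∀ t ≤ d, u t = 0 ∧ v t = v 0
  eu : ∀ t, R ≤ t → α * t * exp (u t) = exp (s * (t - R))
  ev : ∀ t, R ≤ t → v t = s * (t - R)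
  curv : ∀ t, 0 < t → (-(t ^ 2)⁻¹ + deriv (deriv u) t) + deriv (deriv v) t +
    (t⁻¹ + deriv u t) ^ 2 + (deriv v t) ^ 2 + (t⁻¹ + deriv u t) * deriv v t ≤ 3

theorem conv_ineq {x m m' : ℝ} (hx : 2 ≤ x) (h0 : 0 ≤ m) (h1 : m ≤ 1) (h' : 0 ≤ m') :
    (-x ^ 2 + (m' * (1 - x) + m * x ^ 2)) + m' + (x + m * (1 - x)) ^ 2 + m ^ 2 +
      (x + m * (1 - x)) * m ≤ 3 := by
  have h2 : 0 ≤ m * (1 - m) * ((x - 1) ^ 2 + 1 - (x - 1)) :=
    mul_nonneg (mul_nonneg h0 (by linarith)) (by nlinarith [sq_nonneg (x - 1 - 1 / 2)])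
  have h3 : 0 ≤ m' * (x - 2) := mul_nonneg h' (by linarith)
  nlinarith

/-- the core: transition from the flat tube to the expanding cusp, modified by `w` further out -/
theorem exists_prof_aux {α : ℝ} (hα : 0 < α) {s η : ℝ} (hη : 0 ≤ η) (φ : ℝ → ℝ)
    (hφ : ContDiff ℝ ∞ φ) (h1 : ∀ t ≤ -η, deriv φ t = 1) (h2 : ∀ t, deriv φ t ^ 2 ≤ 1)
    (h3 : ∀ t, deriv (deriv φ) t ≤ 0) (h4 : ∀ t, 0 ≤ t → φ t = s * t) :
    ∃ R u v, Prof α s R u v ∧ η < R ∧
      (∫ t in (0 : ℝ)..(R - η), α * t * exp (u t + v t)) < exp (2 * φ (-η)) / 2 ∧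
      ∀ t, R - η ≤ t → α * t * exp (u t + v t) = exp (2 * φ (t - R)) := by
  have hφd : Differentiable ℝ φ := hφ.differentiable (by simp)
  set c := φ (-η) + η with hc
  have hφ1 : ∀ t ≤ -η, φ t = t + c := fun t ht => by
    rw [affine_Iic hφd h1 ht, hc]; ring
  set ρ := min (1 / 2) (exp (φ (-η) - 1) / α) with hρ
  have hρ0 : 0 < ρ := lt_min (by norm_num) (by positivity)
  have hρ1 : ρ ≤ 1 / 2 := min_le_left _ _
  have hρ2 : α * ρ ≤ exp (φ (-η) - 1) := by
    rw [mul_comm, ← le_div_iff₀ hα]; exact min_le_right _ _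
  have hab : ρ / 2 < ρ := by linarith
  set m := cut (ρ / 2) ρ with hm
  have hms : ContDiff ℝ ∞ m := cut_contDiff _ _
  have hmd : Differentiable ℝ m := hms.differentiable (by simp)
  set f : ℝ → ℝ := fun t => m t * (1 - t⁻¹) with hf
  have hfs : ContDiff ℝ ∞ f := by
    refine contDiff_iff_contDiffAt.2 fun t => ?_
    by_cases ht : t = 0
    · have : f =ᶠ[𝓝 t] fun _ => 0 := by
        have : Iio (ρ / 2) ∈ 𝓝 t := Iio_mem_nhds (by rw [ht]; linarith)
        filter_upwards [this] with z hz
        simp only [hf, hm, cut_zero hab (le_of_lt hz), zero_mul]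
      exact contDiffAt_const.congr_of_eventuallyEq this
    · exact hms.contDiffAt.mul (contDiffAt_const.sub (contDiffAt_id.inv ht))
  have hF : prim f ρ ≤ 0 := by
    have : 0 ≤ ∫ t in (0 : ℝ)..ρ, -f t := by
      refine intervalIntegral.integral_nonneg hρ0.le fun t ht => ?_
      rcases eq_or_lt_of_le ht.1 with h | h
      · simp only [hf, hm, cut_zero hab (show t ≤ ρ / 2 by linarith), zero_mul, neg_zero, le_refl]
      · have : 1 ≤ t⁻¹ := (one_le_inv₀ h).2 (by linarith [ht.2])
        have := mul_nonneg (cut_nonneg (ρ / 2) ρ t) (sub_nonneg.2 this)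
        simp only [hf, hm]; linarith
    rw [intervalIntegral.integral_neg] at this
    unfold prim; linarith
  -- `κ = log a(ρ)`, the end of the transition is at `r = κ - c`
  set κ := Real.log (α * ρ) + prim f ρ with hκ
  have hκ1 : κ ≤ φ (-η) - 1 := by
    have := (Real.log_le_iff_le_exp (by positivity)).2 hρ2
    linarith
  set R := ρ + c - κ with hR
  have hRη : ρ + 1 ≤ R - η := by rw [hR, hc]; linarith
  set w : ℝ → ℝ := fun t => φ (t - R) - (t - R) - c with hw
  have hws : ContDiff ℝ ∞ w :=
    ((hφ.comp (contDiff_id.sub contDiff_const)).sub (contDiff_id.sub contDiff_const)).sub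
      contDiff_const
  have hw0 : ∀ t ≤ R - η, w t = 0 := fun t ht => by
    simp only [hw, hφ1 (t - R) (by linarith)]; ring
  have hw1 : deriv w = fun t => deriv φ (t - R) - 1 := by
    funext t
    have := (((hφd (t - R)).hasDerivAt.comp_sub_const t R).sub
      ((hasDerivAt_id t).sub_const R)).sub_const c
    exact this.deriv
  have hφd' : Differentiable ℝ (deriv φ) :=
    (contDiff_infty_iff_deriv.1 hφ).2.differentiable (by simp)
  have hw2 : ∀ t, HasDerivAt (deriv w) (deriv (deriv φ) (t - R)) t := fun t => by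
    rw [hw1]
    exact ((hφd' (t - R)).hasDerivAt.comp_sub_const t R).sub_const 1
  set u : ℝ → ℝ := fun t => prim f t + w t with hu
  set v : ℝ → ℝ := fun t => κ - prim m ρ + prim m t + w t with hv
  have hus : ContDiff ℝ ∞ u := (contDiff_prim hfs).add hws
  have hvs : ContDiff ℝ ∞ v := (contDiff_const.add (contDiff_prim hms)).add hws
  have hwd : Differentiable ℝ w := hws.differentiable (by simp)
  have hu1 : ∀ t, HasDerivAt u (f t + deriv w t) t := fun t =>
    (hasDerivAt_prim hfs.continuous t).add (hwd t).hasDerivAt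
  have hv1 : ∀ t, HasDerivAt v (m t + deriv w t) t := fun t =>
    ((hasDerivAt_prim hms.continuous t).const_add _).add (hwd t).hasDerivAt
  have hu1' : deriv u = fun t => f t + deriv w t := funext fun t => (hu1 t).deriv
  have hv1' : deriv v = fun t => m t + deriv w t := funext fun t => (hv1 t).deriv
  have hL : ∀ t, ρ ≤ t → prim m t = prim m ρ + 1 * (t - ρ) := fun t ht =>
    affine_Ici ((contDiff_prim hms).differentiable (by simp))
      (fun z hz => by rw [deriv_prim hms.continuous]; exact cut_one hab hz) ht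
  have hFt : ∀ t, ρ ≤ t → Real.log (α * t) + prim f t = κ + (t - ρ) := fun t ht => by
    have h5 : ∀ z ∈ uIcc ρ t, HasDerivAt (fun z => Real.log (α * z) + prim f z) 1 z := by
      intro z hz
      rw [uIcc_of_le ht] at hz
      have hz0 : 0 < z := hρ0.trans_le hz.1
      have := (((hasDerivAt_id z).const_mul α).log (by simp; constructor <;> positivity)).add
        (hasDerivAt_prim hfs.continuous z)
      refine this.congr_deriv ?_
      simp only [hf, hm, cut_one hab hz.1, id]
      field_simp; ring
    have h6 := intervalIntegral.integral_eq_sub_of_hasDerivAt (f' := fun _ => (1 : ℝ)) h5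
      intervalIntegrable_const
    simp only [intervalIntegral.integral_const, smul_eq_mul] at h6
    linarith
  have hA : ∀ t, ρ ≤ t → α * t * exp (u t) = exp (φ (t - R)) := fun t ht => by
    have ht0 : 0 < α * t := mul_pos hα (hρ0.trans_le ht)
    rw [← exp_log ht0, ← exp_add]
    congr 1
    have := hFt t ht
    simp only [hu, hw]; linarith
  have hB : ∀ t, ρ ≤ t → v t = φ (t - R) := fun t ht => by
    have := hL t ht
    simp only [hv, hw]; linarith
  have hAB : ∀ t, ρ ≤ t → α * t * exp (u t + v t) = exp (2 * φ (t - R)) := fun t ht => by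
    rw [exp_add, ← mul_assoc, hA t ht, hB t ht, ← exp_add, two_mul]
  refine ⟨R, u, v, ⟨by linarith, hus, hvs, ⟨ρ / 2, by linarith, fun t ht => ?_⟩,
    fun t ht => ?_, fun t ht => ?_, fun t ht => ?_⟩, by linarith, ?_,
    fun t ht => hAB t (by linarith)⟩
  · have e1 : prim f t = 0 := prim_eq_zero (by linarith : 0 ≤ ρ / 2)
      (fun z hz => by simp only [hf, hm, cut_zero hab hz, zero_mul]) ht
    have e2 : prim m t = 0 := prim_eq_zero (by linarith : 0 ≤ ρ / 2)
      (fun z hz => cut_zero hab hz) ht
    simp only [hu, hv, e1, e2, prim_zero, hw0 t (by linarith), hw0 0 (by linarith)]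
    simp
  · rw [hA t (by linarith), h4 _ (by linarith)]
  · rw [hB t (by linarith), h4 _ (by linarith)]
  · have hf1 : HasDerivAt f (deriv m t * (1 - t⁻¹) + m t * (t⁻¹) ^ 2) t := by
      have := (hmd t).hasDerivAt.mul ((hasDerivAt_inv ht.ne').const_sub 1)
      refine this.congr_deriv ?_
      simp
    have e1 : deriv (deriv u) t =
        deriv m t * (1 - t⁻¹) + m t * (t⁻¹) ^ 2 + deriv (deriv φ) (t - R) := by
      rw [hu1']; exact (hf1.add (hw2 t)).deriv
    have e2 : deriv (deriv v) t = deriv m t + deriv (deriv φ) (t - R) := by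
      rw [hv1']; exact ((hmd t).hasDerivAt.add (hw2 t)).deriv
    rw [e1, e2, (hu1 t).deriv, (hv1 t).deriv, hw1, ← inv_pow]
    have h5 := h3 (t - R)
    rcases le_or_gt t ρ with h | h
    · have h6 : deriv φ (t - R) = 1 := h1 _ (by linarith)
      have h7 : 2 ≤ t⁻¹ := by rw [le_inv_comm₀ (by norm_num) ht]; linarith
      have := conv_ineq h7 (cut_nonneg (ρ / 2) ρ t) (cut_le_one _ _ t) (cut_deriv_nonneg hab t)
      simp only [h6, hf, hm] at this ⊢
      nlinarith
    · have h6 := h2 (t - R)
      simp only [hf, hm, cut_one hab h.le, cut_deriv_zero hab h]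
      nlinarith
  · set M : ℝ → ℝ := fun t => α * t * exp (u t + v t) with hM
    set M' : ℝ → ℝ := fun t => α * exp (u t + v t) +
      α * t * (exp (u t + v t) * (f t + deriv w t + (m t + deriv w t))) with hM'
    have hMd : ∀ t, HasDerivAt M (M' t) t := fun t => by
      have := ((hasDerivAt_id t).const_mul α).mul ((hu1 t).add (hv1 t)).exp
      refine this.congr_deriv ?_
      simp [hM']
    have hwc : Continuous (deriv w) := hws.continuous_deriv (by simp)
    have hM'c : Continuous M' := by
      have := hus.continuous; have := hvs.continuous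
      have := hfs.continuous; have := hms.continuous
      simp only [hM']; fun_prop
    have hMc : Continuous M := by
      have := hus.continuous; have := hvs.continuous
      simp only [hM]; fun_prop
    have e1 := intervalIntegral.integral_eq_sub_of_hasDerivAt (a := 0) (b := R - η)
      (fun t _ => hMd t) (hM'c.intervalIntegrable _ _)
    have e2 : M (R - η) = exp (2 * φ (-η)) := by
      have := hAB (R - η) (by linarith)
      rwa [show R - η - R = -η by ring] at this
    have e3 : M 0 = 0 := by simp [hM]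
    have e4 : ∀ t, 0 ≤ t → t ≤ R - η →
        M' t - 2 * M t = α * exp (u t + v t) * ((1 - m t) * (1 - 2 * t)) := fun t h0 ht => by
      have e5 : deriv w t = 0 := by rw [hw1]; simp only [h1 (t - R) (by linarith), sub_self]
      rcases eq_or_lt_of_le h0 with h | h
      · subst h
        simp [hM, hM', hm, cut_zero hab (by linarith : (0 : ℝ) ≤ ρ / 2)]
      · simp only [hM, hM', e5, hf]; field_simp; ring
    have e6 : (∫ t in (0 : ℝ)..(R - η), 2 * M t) < ∫ t in (0 : ℝ)..(R - η), M' t := by
      refine intervalIntegral.integral_lt_integral_of_continuousOn_of_le_of_exists_lt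
        (by linarith) (by fun_prop) hM'c.continuousOn (fun t ht => ?_) ⟨0, ⟨le_rfl, by linarith⟩, ?_⟩
      · have := e4 t ht.1.le ht.2
        have h5 : 0 ≤ (1 - m t) * (1 - 2 * t) := by
          rcases le_or_gt t ρ with h | h
          · exact mul_nonneg (sub_nonneg.2 (cut_le_one _ _ t)) (by linarith)
          · simp only [hm, cut_one hab h.le, sub_self, zero_mul, le_refl]
        have : 0 ≤ α * exp (u t + v t) * ((1 - m t) * (1 - 2 * t)) := by positivity
        linarith
      · have := e4 0 le_rfl (by linarith)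
        have h5 : m 0 = 0 := cut_zero hab (by linarith)
        have h6 : 0 < α * exp (u 0 + v 0) := by positivity
        rw [h5] at this
        linarith
    rw [intervalIntegral.integral_const_mul] at e6
    linarith

/-- profile for the side where the tori expand: less volume than the cusp -/
theorem exists_prof_pos {α : ℝ} (hα : 0 < α) : ∃ R u v, Prof α 1 R u v ∧
    (∫ t in (0 : ℝ)..R, α * t * exp (u t + v t)) < 1 / 2 := by
  obtain ⟨R, u, v, h, -, h2, -⟩ := exists_prof_aux hα (s := 1) (η := 0) le_rfl id contDiff_id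
    (fun t _ => by simp) (fun t => by simp) (fun t => by simp) (fun t _ => by simp)
  exact ⟨R, u, v, h, by simpa using h2⟩

/-- profile for the side where the tori shrink -/
theorem exists_prof_neg {α : ℝ} (hα : 0 < α) : ∃ R u v, Prof α (-1) R u v ∧
    (∫ t in (0 : ℝ)..R, α * t * exp (u t + v t)) < 12 := by
  have hab : (-1 : ℝ) < 0 := by norm_num
  set q : ℝ → ℝ := fun t => 1 - 2 * cut (-1) 0 t with hq
  have hqs : ContDiff ℝ ∞ q := contDiff_const.sub (contDiff_const.mul (cut_contDiff _ _))
  have hd := deriv_prim hqs.continuous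
  have hpd : Differentiable ℝ (prim q) := (contDiff_prim hqs).differentiable (by simp)
  have hq1 : ∀ t, -1 ≤ q t := fun t => by
    have := cut_le_one (-1) 0 t
    simp only [hq]; linarith
  have hle : ∀ t, -1 ≤ t → t ≤ 0 → prim q t ≤ 1 := fun t h0 ht => by
    have h1 : (∫ _ in t..0, (-1 : ℝ)) ≤ ∫ z in t..0, q z :=
      intervalIntegral.integral_mono_on ht intervalIntegrable_const
        (hqs.continuous.intervalIntegrable _ _) fun z _ => hq1 z
    simp only [intervalIntegral.integral_const, smul_eq_mul] at h1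
    unfold prim
    rw [intervalIntegral.integral_symm]
    linarith
  obtain ⟨R, u, v, h, h1, h2, h3⟩ := exists_prof_aux hα (s := -1) (η := 1) zero_le_one (prim q)
    (contDiff_prim hqs) (fun t ht => by rw [hd]; simp [hq, cut_zero hab ht])
    (fun t => by
      have := cut_nonneg (-1) 0 t
      have := cut_le_one (-1) 0 t
      rw [hd]; simp only [hq]; nlinarith)
    (fun t => by
      have h1 := (((cut_contDiff (-1) 0).differentiable (by simp) t).hasDerivAt.const_mul
        (2 : ℝ)).const_sub 1
      have h2 := cut_deriv_nonneg hab t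
      rw [hd, hq, h1.deriv]; linarith)
    (fun t ht => by
      rw [affine_Ici (c := -1) hpd (fun z hz => by
        rw [hd]; simp only [hq, cut_one hab hz]; norm_num) ht, prim_zero]; ring)
  refine ⟨R, u, v, h, ?_⟩
  have hc : Continuous fun t => α * t * exp (u t + v t) := by
    have := h.su.continuous; have := h.sv.continuous
    fun_prop
  have he : exp 2 < 8 := by
    have h5 := Real.exp_one_lt_d9
    have h6 : exp 2 = exp 1 * exp 1 := by rw [← exp_add]; norm_num
    have := exp_pos 1
    nlinarith
  have h4 : (∫ t in (R - 1)..R, α * t * exp (u t + v t)) ≤ ∫ _ in (R - 1)..R, exp 2 := by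
    refine intervalIntegral.integral_mono_on (by linarith) (hc.intervalIntegrable _ _)
      intervalIntegrable_const fun t ht => ?_
    rw [h3 t ht.1, exp_le_exp]
    linarith [hle (t - R) (by linarith [ht.1]) (by linarith [ht.2])]
  have h5 : exp (2 * prim q (-1)) ≤ exp 2 := by
    rw [exp_le_exp]; linarith [hle (-1) le_rfl (by norm_num)]
  rw [← intervalIntegral.integral_add_adjacent_intervals (b := R - 1)
    (hc.intervalIntegrable _ _) (hc.intervalIntegrable _ _)]
  simp only [intervalIntegral.integral_const, smul_eq_mul] at h4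
  linarith

end Vale.Agent.P216FI
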