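import Vale.Agent.P216FI.Warp
import Vale.Agent.P216FI.Prof

/-!
# The metric of the filling tube in Cartesian coordinates, and the polar map
-/

open Set Topology Real
open Filter hiding comap
open scoped ContDiff Manifold

set_option maxSynthPendingDepth 3

noncomputable section

namespace Vale.Agent.P216FI

open Vale.Agent.P216R Vale.Agent.P219.RG

/-- distance to the axis -/
def rad (w : E3) : ℝ := √(w 0 ^ 2 + w 1 ^ 2)

/-- the polar map `(x, y, r) ↦ ((r + R) cos (α x), (r + R) sin (α x), y)` -/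
def ka (α R : ℝ) (p : E3) : E3 :=
  ((p 2 + R) * cos (α * p 0)) • ee 0 + ((p 2 + R) * sin (α * p 0)) • ee 1 + p 1 • ee 2

/-- screw motion: rotation by `θ` about the axis and translation by `c` along the axis -/
def scr (θ c : ℝ) (w : E3) : E3 :=
  (cos θ * w 0 - sin θ * w 1) • ee 0 + (sin θ * w 0 + cos θ * w 1) • ee 1 + (w 2 + c) • ee 2

@[simp] theorem ka_0 (α R : ℝ) (p : E3) : ka α R p 0 = (p 2 + R) * cos (α * p 0) := by simp [ka]
@[simp] theorem ka_1 (α R : ℝ) (p : E3) : ka α R p 1 = (p 2 + R) * sin (α * p 0) := by simp [ka]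
@[simp] theorem ka_2 (α R : ℝ) (p : E3) : ka α R p 2 = p 1 := by simp [ka]
@[simp] theorem scr_0 (θ c : ℝ) (w : E3) : scr θ c w 0 = cos θ * w 0 - sin θ * w 1 := by simp [scr]
@[simp] theorem scr_1 (θ c : ℝ) (w : E3) : scr θ c w 1 = sin θ * w 0 + cos θ * w 1 := by simp [scr]
@[simp] theorem scr_2 (θ c : ℝ) (w : E3) : scr θ c w 2 = w 2 + c := by simp [scr]

theorem rad_nonneg (w : E3) : 0 ≤ rad w := sqrt_nonneg _

theorem rad_sq (w : E3) : rad w ^ 2 = w 0 ^ 2 + w 1 ^ 2 := sq_sqrt (by positivity)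

theorem continuous_rad : Continuous rad := by unfold rad; fun_prop

theorem contDiffAt_rad {w : E3} (hw : rad w ≠ 0) : ContDiffAt ℝ ∞ rad w := by
  refine ContDiffAt.sqrt (((dx 0).contDiff.pow 2).add ((dx 1).contDiff.pow 2)).contDiffAt ?_
  intro h
  exact hw (by unfold rad; rw [show w 0 ^ 2 + w 1 ^ 2 = 0 from h, sqrt_zero])

theorem rad_ka (α R : ℝ) {p : E3} (hp : 0 ≤ p 2 + R) : rad (ka α R p) = p 2 + R := by
  unfold rad
  rw [ka_0, ka_1, mul_pow, mul_pow, ← mul_add, cos_sq_add_sin_sq, mul_one, sqrt_sq hp]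

theorem rad_scr (θ c : ℝ) (w : E3) : rad (scr θ c w) = rad w := by
  unfold rad
  rw [scr_0, scr_1]
  congr 1
  linear_combination (w 0 ^ 2 + w 1 ^ 2) * cos_sq_add_sin_sq θ

theorem ka_add (α R : ℝ) (p : E3) (a c : ℝ) :
    ka α R (p + a • ee 0 + c • ee 1) = scr (α * a) c (ka α R p) := by
  refine PiLp.ext fun i => ?_
  fin_cases i <;> simp [mul_add, cos_add, sin_add] <;> ring

theorem contDiff_ka (α R : ℝ) : ContDiff ℝ ∞ (ka α R) := by
  have h0 : ContDiff ℝ ∞ fun p : E3 => p 0 := (dx 0).contDiff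
  have h1 : ContDiff ℝ ∞ fun p : E3 => p 1 := (dx 1).contDiff
  have h2 : ContDiff ℝ ∞ fun p : E3 => p 2 := (dx 2).contDiff
  unfold ka
  fun_prop

theorem contDiff_scr (θ c : ℝ) : ContDiff ℝ ∞ (scr θ c) := by
  have h0 : ContDiff ℝ ∞ fun p : E3 => p 0 := (dx 0).contDiff
  have h1 : ContDiff ℝ ∞ fun p : E3 => p 1 := (dx 1).contDiff
  have h2 : ContDiff ℝ ∞ fun p : E3 => p 2 := (dx 2).contDiff
  unfold scr
  fun_prop

theorem fderiv_ka (α R : ℝ) (p v : E3) : fderiv ℝ (ka α R) p v =
    (v 2 * cos (α * p 0) - (p 2 + R) * sin (α * p 0) * (α * v 0)) • ee 0 +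
    (v 2 * sin (α * p 0) + (p 2 + R) * cos (α * p 0) * (α * v 0)) • ee 1 + v 1 • ee 2 := by
  have h0 : HasFDerivAt (fun p : E3 => p 0) (dx 0) p := (dx 0).hasFDerivAt
  have h1 : HasFDerivAt (fun p : E3 => p 1) (dx 1) p := (dx 1).hasFDerivAt
  have h2 : HasFDerivAt (fun p : E3 => p 2) (dx 2) p := (dx 2).hasFDerivAt
  have h := ((((h2.add_const R).mul (h0.const_mul α).cos).smul_const (ee 0)).add
    (((h2.add_const R).mul (h0.const_mul α).sin).smul_const (ee 1))).add (h1.smul_const (ee 2))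
  have h' : HasFDerivAt (ka α R) _ p := h
  rw [h'.fderiv]
  refine PiLp.ext fun i => ?_
  fin_cases i <;> simp <;> ring

theorem fderiv_scr (θ c : ℝ) (p v : E3) : fderiv ℝ (scr θ c) p v = scr θ 0 v := by
  have h0 : HasFDerivAt (fun p : E3 => p 0) (dx 0) p := (dx 0).hasFDerivAt
  have h1 : HasFDerivAt (fun p : E3 => p 1) (dx 1) p := (dx 1).hasFDerivAt
  have h2 : HasFDerivAt (fun p : E3 => p 2) (dx 2) p := (dx 2).hasFDerivAt
  have h := ((((h0.const_mul (cos θ)).sub (h1.const_mul (sin θ))).smul_const (ee 0)).add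
    (((h0.const_mul (sin θ)).add (h1.const_mul (cos θ))).smul_const (ee 1))).add
      ((h2.add_const c).smul_const (ee 2))
  have h' : HasFDerivAt (scr θ c) _ p := h
  rw [h'.fderiv]
  refine PiLp.ext fun i => ?_
  fin_cases i <;> simp

theorem md_eq (f : E3 → E3) (x : E3) : md E3 f x = fderiv ℝ f x := mfderiv_eq_fderiv

theorem comap_apply (f : E3 → E3) (G : E3 → Bil E3) (p v w : E3) :
    comap f G p v w = G (f p) (fderiv ℝ f p v) (fderiv ℝ f p w) := by
  simp [P216R.comap, md_eq]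

theorem ld_ka {α : ℝ} (hα : α ≠ 0) (R : ℝ) : LD E3 (ka α R) (slab (Ioi (-R))) where
  isOpen := isOpen_slab isOpen_Ioi
  smooth := (contDiff_ka α R).contMDiff.contMDiffOn
  inj := fun p hp => by
    rw [md_eq, injective_iff_map_eq_zero]
    intro v hv
    rw [fderiv_ka] at hv
    have h0 := congr_arg (fun z : E3 => z 0) hv
    have h1 := congr_arg (fun z : E3 => z 1) hv
    have h2 := congr_arg (fun z : E3 => z 2) hv
    simp at h0 h1 h2
    have hp' : p 2 + R ≠ 0 := by
      have : -R < p 2 := hp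
      linarith
    have e2 : v 2 = 0 := by
      linear_combination cos (α * p 0) * h0 + sin (α * p 0) * h1 -
        v 2 * cos_sq_add_sin_sq (α * p 0)
    have e0 : (p 2 + R) * (α * v 0) = 0 := by
      linear_combination -sin (α * p 0) * h0 + cos (α * p 0) * h1 -
        (p 2 + R) * (α * v 0) * cos_sq_add_sin_sq (α * p 0)
    have e0' : v 0 = 0 := by simpa [hp', hα] using e0
    refine PiLp.ext fun i => ?_
    fin_cases i <;> simp [e0', e2, h2]

theorem ld_scr (θ c : ℝ) : LD E3 (scr θ c) univ where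
  isOpen := isOpen_univ
  smooth := (contDiff_scr θ c).contMDiff.contMDiffOn
  inj := fun p _ => by
    rw [md_eq, injective_iff_map_eq_zero]
    intro v hv
    rw [fderiv_scr] at hv
    have h0 := congr_arg (fun z : E3 => z 0) hv
    have h1 := congr_arg (fun z : E3 => z 1) hv
    have h2 := congr_arg (fun z : E3 => z 2) hv
    simp at h0 h1 h2
    have e0 : v 0 = 0 := by
      linear_combination cos θ * h0 + sin θ * h1 - v 0 * cos_sq_add_sin_sq θ
    have e1 : v 1 = 0 := by
      linear_combination -sin θ * h0 + cos θ * h1 - v 1 * cos_sq_add_sin_sq θ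
    refine PiLp.ext fun i => ?_
    fin_cases i <;> simp [e0, e1, h2]

/-- every point off the axis is in the image of the polar map -/
theorem exists_ka {α : ℝ} (hα : α ≠ 0) (R : ℝ) (w : E3) :
    ∃ p, ka α R p = w ∧ p 2 + R = rad w ∧ p 1 = w 2 := by
  set z : ℂ := ⟨w 0, w 1⟩ with hz
  have hn : ‖z‖ = rad w := by
    rw [Complex.norm_eq_sqrt_sq_add_sq]; rfl
  refine ⟨(z.arg / α) • ee 0 + w 2 • ee 1 + (rad w - R) • ee 2, PiLp.ext fun i => ?_, by simp,
    by simp⟩
  have h0 := Complex.norm_mul_cos_arg z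
  have h1 := Complex.norm_mul_sin_arg z
  rw [hn] at h0 h1
  have e0 : z.re = w 0 := rfl
  have e1 : z.im = w 1 := rfl
  clear_value z
  fin_cases i <;> simp [mul_div_cancel₀ _ hα, h0, h1, e0, e1]

/-- the tube metric -/
def tube (u v : ℝ → ℝ) (w : E3) : Bil E3 :=
  exp (2 * u (rad w)) • (dxx 0 0 + dxx 1 1) +
    ((1 - exp (2 * u (rad w))) / rad w ^ 2) •
      (w 0 ^ 2 • dxx 0 0 + (w 0 * w 1) • (dxx 0 1 + dxx 1 0) + w 1 ^ 2 • dxx 1 1) +
    exp (2 * v (rad w)) • dxx 2 2

theorem tube_apply (u v : ℝ → ℝ) (w a b : E3) : tube u v w a b =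
    exp (2 * u (rad w)) * (a 0 * b 0 + a 1 * b 1) +
      (1 - exp (2 * u (rad w))) / rad w ^ 2 * ((w 0 * a 0 + w 1 * a 1) * (w 0 * b 0 + w 1 * b 1)) +
      exp (2 * v (rad w)) * (a 2 * b 2) := by
  simp [tube]; ring

/-- a smooth function of the radius that is constant near the axis is smooth -/
theorem contDiff_comp_rad {f : ℝ → ℝ} (hf : ∀ t, 0 < t → ContDiffAt ℝ ∞ f t) {d c : ℝ}
    (hd : 0 < d) (h : ∀ t ≤ d, f t = c) : ContDiff ℝ ∞ fun w => f (rad w) := by
  refine contDiff_iff_contDiffAt.2 fun w => ?_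
  rcases eq_or_lt_of_le (rad_nonneg w) with h0 | h0
  · have : (fun w => f (rad w)) =ᶠ[𝓝 w] fun _ => c := by
      have h1 : ∀ᶠ z in 𝓝 w, rad z < d :=
        continuous_rad.continuousAt.eventually (Iio_mem_nhds (by rw [← h0]; exact hd))
      filter_upwards [h1] with z hz using h _ hz.le
    exact contDiffAt_const.congr_of_eventuallyEq this
  · exact (hf _ h0).comp w (contDiffAt_rad h0.ne')

variable {α s R : ℝ} {u v : ℝ → ℝ}

theorem Prof.isMetricOn (h : Prof α s R u v) : IsMetricOn (tube u v) univ where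
  isOpen := isOpen_univ
  smooth := by
    obtain ⟨d, hd, hf⟩ := h.flat
    have h0 : ContDiff ℝ ∞ fun p : E3 => p 0 := (dx 0).contDiff
    have h1 : ContDiff ℝ ∞ fun p : E3 => p 1 := (dx 1).contDiff
    have e1 : ContDiff ℝ ∞ fun w => exp (2 * u (rad w)) :=
      contDiff_comp_rad (f := fun t => exp (2 * u t)) (c := 1)
        (fun t _ => (contDiff_const.mul h.su).exp.contDiffAt) hd fun t ht => by simp [(hf t ht).1]
    have e2 : ContDiff ℝ ∞ fun w => exp (2 * v (rad w)) :=
      contDiff_comp_rad (f := fun t => exp (2 * v t)) (c := exp (2 * v 0))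
        (fun t _ => (contDiff_const.mul h.sv).exp.contDiffAt) hd fun t ht => by rw [(hf t ht).2]
    have e3 : ContDiff ℝ ∞ fun w => (1 - exp (2 * u (rad w))) / rad w ^ 2 :=
      contDiff_comp_rad (f := fun t => (1 - exp (2 * u t)) / t ^ 2) (c := 0)
        (fun t ht => (contDiffAt_const.sub (contDiff_const.mul h.su).exp.contDiffAt).div
          (contDiffAt_id.pow 2) (by positivity)) hd fun t ht => by simp [(hf t ht).1]
    refine ContDiff.contDiffOn ?_
    exact ((e1.smul contDiff_const).add (e3.smul ((((h0.pow 2).smul contDiff_const).add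
      ((h0.mul h1).smul contDiff_const)).add ((h1.pow 2).smul contDiff_const)))).add
      (e2.smul contDiff_const)
  symm := fun w _ a b => by simp only [tube_apply]; ring
  pos := fun w _ a ha => by
    rw [tube_apply]
    have hu := exp_pos (2 * u (rad w))
    have hv := exp_pos (2 * v (rad w))
    rcases eq_or_lt_of_le (rad_nonneg w) with h0 | h0
    · have := diag_pos hu hu hv ha
      rw [← h0] at this ⊢
      simp only [ne_eq, OfNat.ofNat_ne_zero, not_false_eq_true, zero_pow, div_zero, zero_mul,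
        add_zero]
      linarith
    · have hr : 0 < rad w ^ 2 := by positivity
      set m := min (exp (2 * u (rad w))) 1 with hm
      have hm0 : 0 < m := lt_min hu one_pos
      have h1 := diag_pos hm0 hm0 hv ha
      have h2 : exp (2 * u (rad w)) * (a 0 * a 0 + a 1 * a 1) +
          (1 - exp (2 * u (rad w))) / rad w ^ 2 *
            ((w 0 * a 0 + w 1 * a 1) * (w 0 * a 0 + w 1 * a 1)) - m * (a 0 * a 0 + a 1 * a 1) =
          ((exp (2 * u (rad w)) - m) * (w 0 * a 1 - w 1 * a 0) ^ 2 +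
            (1 - m) * (w 0 * a 0 + w 1 * a 1) ^ 2) / rad w ^ 2 := by
        field_simp
        rw [rad_sq]; ring
      have h3 : 0 ≤ ((exp (2 * u (rad w)) - m) * (w 0 * a 1 - w 1 * a 0) ^ 2 +
            (1 - m) * (w 0 * a 0 + w 1 * a 1) ^ 2) / rad w ^ 2 :=
        div_nonneg (add_nonneg (mul_nonneg (sub_nonneg.2 (min_le_left _ _)) (sq_nonneg _))
          (mul_nonneg (sub_nonneg.2 (min_le_right _ _)) (sq_nonneg _))) hr.le
      linarith

/-- the tube metric is invariant under screw motions -/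
theorem comap_scr_tube (u v : ℝ → ℝ) (θ c : ℝ) : comap (scr θ c) (tube u v) = tube u v := by
  funext w
  ext a b
  rw [comap_apply, tube_apply, tube_apply, rad_scr, fderiv_scr, fderiv_scr]
  simp only [scr_0, scr_1, scr_2, add_zero]
  have h := cos_sq_add_sin_sq θ
  have e1 : ∀ x y : E3, (cos θ * x 0 - sin θ * x 1) * (cos θ * y 0 - sin θ * y 1) +
      (sin θ * x 0 + cos θ * x 1) * (sin θ * y 0 + cos θ * y 1) = x 0 * y 0 + x 1 * y 1 :=
    fun x y => by linear_combination (x 0 * y 0 + x 1 * y 1) * h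
  rw [e1, e1, e1]

/-- logarithm of the first warping function, in the collar coordinate -/
def wa (α R : ℝ) (u : ℝ → ℝ) (r : ℝ) : ℝ := Real.log (α * (r + R)) + u (r + R)

/-- logarithm of the second warping function, in the collar coordinate -/
def wb (R : ℝ) (v : ℝ → ℝ) (r : ℝ) : ℝ := v (r + R)

/-- the tube metric in polar coordinates -/
theorem comap_ka_tube (hα : 0 < α) (u v : ℝ → ℝ) {p : E3} (hp : p ∈ slab (Ioi (-R))) :
    comap (ka α R) (tube u v) p = wm (wa α R u) (wb R v) p := by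
  have hp' : 0 < p 2 + R := by
    have : -R < p 2 := hp
    linarith
  ext a b
  have e : exp (2 * wa α R u (p 2)) = (α * (p 2 + R)) ^ 2 * exp (2 * u (p 2 + R)) := by
    rw [wa, mul_add 2, exp_add, two_mul (Real.log _), exp_add, exp_log (by positivity)]; ring
  rw [comap_apply, tube_apply, wm_apply, rad_ka α R hp'.le, fderiv_ka, fderiv_ka, e, wb]
  have h := cos_sq_add_sin_sq (α * p 0)
  simp
  set C := cos (α * p 0)
  set S := sin (α * p 0)
  set t := p 2 + R
  have e1 : ∀ x : E3, t * C * (x 2 * C - t * S * (α * x 0)) + t * S * (x 2 * S + t * C * (α * x 0))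
      = t * x 2 := fun x => by linear_combination t * x 2 * h
  have e2 : (a 2 * C - t * S * (α * a 0)) * (b 2 * C - t * S * (α * b 0)) +
      (a 2 * S + t * C * (α * a 0)) * (b 2 * S + t * C * (α * b 0)) =
      a 2 * b 2 + (α * t) ^ 2 * (a 0 * b 0) := by
    linear_combination (a 2 * b 2 + (α * t) ^ 2 * (a 0 * b 0)) * h
  rw [e1, e1, e2]
  field_simp
  ring

/-- the cusp metric `e^(2 s r) (dx² + dy²) + dr²` -/
def cusp (s : ℝ) : E3 → Bil E3 := wm (fun t => s * t) fun t => s * t

theorem Prof.wa_eq (h : Prof α s R u v) {r : ℝ} (hr : 0 ≤ r) : wa α R u r = s * r := by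
  have h1 := h.eu (r + R) (by linarith)
  have h2 : 0 < α * (r + R) := (mul_pos_iff_of_pos_right (exp_pos _)).1 (h1 ▸ exp_pos _)
  rw [← exp_log h2, ← exp_add] at h1
  rw [wa, exp_injective h1]; ring

theorem Prof.wb_eq (h : Prof α s R u v) {r : ℝ} (hr : 0 ≤ r) : wb R v r = s * r := by
  rw [wb, h.ev (r + R) (by linarith)]; ring

theorem Prof.comap_ka (h : Prof α s R u v) (hα : 0 < α) {p : E3} (hp : 0 ≤ p 2) :
    comap (ka α R) (tube u v) p = cusp s p := by
  rw [comap_ka_tube hα u v (show -R < p 2 by linarith [h.R_pos])]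
  simp only [wm, cusp, h.wa_eq hp, h.wb_eq hp]

theorem contDiffOn_wa (hα : 0 < α) (hu : ContDiff ℝ ∞ u) : ContDiffOn ℝ ∞ (wa α R u) (Ioi (-R)) :=
  ((contDiffOn_const.mul (contDiffOn_id.add contDiffOn_const)).log fun r hr => by
    have : -R < r := hr
    have : 0 < r + R := by linarith
    simp only [id]; positivity).add (hu.comp (contDiff_id.add contDiff_const)).contDiffOn

theorem contDiffOn_wb (hv : ContDiff ℝ ∞ v) : ContDiffOn ℝ ∞ (wb R v) (Ioi (-R)) :=
  (hv.comp (contDiff_id.add contDiff_const)).contDiffOn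

theorem Prof.scG_wm (h : Prof α s R u v) (hα : 0 < α) {p : E3} (hp : p ∈ slab (Ioi (-R))) :
    -6 ≤ scG (wm (wa α R u) (wb R v)) p := by
  have hud : Differentiable ℝ u := h.su.differentiable (by simp)
  have hvd : Differentiable ℝ v := h.sv.differentiable (by simp)
  have hud' : Differentiable ℝ (deriv u) :=
    (contDiff_infty_iff_deriv.1 h.su).2.differentiable (by simp)
  have hvd' : Differentiable ℝ (deriv v) :=
    (contDiff_infty_iff_deriv.1 h.sv).2.differentiable (by simp)
  have a1 : ∀ r, -R < r → deriv (wa α R u) r = (r + R)⁻¹ + deriv u (r + R) := fun r hr => by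
    have h0 : 0 < r + R := by linarith
    have := ((((hasDerivAt_id r).add_const R).const_mul α).log (by simp only [id]; positivity)).add
      ((hud (r + R)).hasDerivAt.comp_add_const r R)
    refine (this.congr_deriv ?_).deriv
    simp only [id]; field_simp
  have b1 : deriv (wb R v) = fun r => deriv v (r + R) :=
    funext fun r => ((hvd (r + R)).hasDerivAt.comp_add_const r R).deriv
  have hp' : -R < p 2 := hp
  have h0 : 0 < p 2 + R := by linarith
  have a2 : deriv (deriv (wa α R u)) (p 2) = -((p 2 + R) ^ 2)⁻¹ + deriv (deriv u) (p 2 + R) := by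
    have e : deriv (wa α R u) =ᶠ[𝓝 (p 2)] fun r => (r + R)⁻¹ + deriv u (r + R) := by
      filter_upwards [Ioi_mem_nhds hp'] with r hr using a1 r hr
    rw [e.deriv_eq]
    exact (((hasDerivAt_inv h0.ne').comp_add_const (p 2) R).add
      ((hud' (p 2 + R)).hasDerivAt.comp_add_const (p 2) R)).deriv
  have b2 : deriv (deriv (wb R v)) (p 2) = deriv (deriv v) (p 2 + R) := by
    rw [b1]; exact ((hvd' (p 2 + R)).hasDerivAt.comp_add_const (p 2) R).deriv
  rw [P216FI.scG_wm isOpen_Ioi (contDiffOn_wa hα h.su) (contDiffOn_wb h.sv) hp, a2, b2,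
    a1 _ hp', b1]
  linarith [h.curv _ h0]

theorem scG_cusp (s : ℝ) (p : E3) : scG (cusp s) p = -6 * s ^ 2 := by
  have h : ContDiffOn ℝ ∞ (fun t : ℝ => s * t) univ := by fun_prop
  have h1 : deriv (fun t : ℝ => s * t) = fun _ => s := by
    funext t; simp
  rw [cusp, P216FI.scG_wm isOpen_univ h h (mem_univ _), h1]
  simp; ring

end Vale.Agent.P216FI
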