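import Vale.Agent.P216R.Met
import Mathlib.MeasureTheory.Function.Jacobian
import Mathlib.MeasureTheory.Measure.Haar.InnerProductSpace
import Mathlib.Topology.Compactness.Lindelof

/-!
# The Riemannian measure: existence and change of variables
-/

open Set Topology MeasureTheory Module
open Filter hiding comap comap_id
open scoped ContDiff Manifold ENNReal

set_option maxSynthPendingDepth 3

noncomputable section

namespace Vale.Agent.P216R

open Vale.Agent.P210.R2.H53 (dens)

section Top

variable {X Y : Type*} [TopologicalSpace X] [MeasurableSpace X] [BorelSpace X]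
  [TopologicalSpace Y] [MeasurableSpace Y] [BorelSpace Y]

theorem meas_inter_preimage {f : X → Y} {V : Set X} (hV : MeasurableSet V) (hf : ContinuousOn f V)
    {S : Set Y} (hS : MeasurableSet S) : MeasurableSet (V ∩ f ⁻¹' S) := by
  have h := MeasurableSet.subtype_image hV (hf.domRestrict.measurable hS)
  convert h using 1
  ext x
  simp [and_comm]

/-- a local inequality between a countably subadditive set function and a measure is global -/
theorem le_of_loc {P : Set X → ℝ≥0∞} (h0 : P ∅ = 0) (hP : ∀ s : ℕ → Set X, P (⋃ n, s n) ≤ ∑' n, P (s n))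
    {ν : Measure X} {K : Set X} (hK : IsLindelof K)
    (h : ∀ x ∈ K, ∃ W, IsOpen W ∧ x ∈ W ∧ ∀ S ⊆ W, MeasurableSet S → P S ≤ ν S)
    {S : Set X} (hS : MeasurableSet S) (hSK : S ⊆ K) : P S ≤ ν S := by
  rcases S.eq_empty_or_nonempty with rfl | ⟨x₀, hx₀⟩
  · simp [h0]
  choose! W h1 h2 h3 using h
  obtain ⟨t, tc, tK, ht⟩ := hK.elim_nhds_subcover W fun x hx => (h1 x hx).mem_nhds (h2 x hx)
  have tn : t.Nonempty := by
    obtain ⟨y, hy, -⟩ := mem_iUnion₂.1 (ht (hSK hx₀))
    exact ⟨y, hy⟩
  obtain ⟨u, rfl⟩ := tc.exists_eq_range tn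
  have hu : ∀ n, u n ∈ K := fun n => tK _ ⟨n, rfl⟩
  have hm : ∀ n, MeasurableSet (disjointed (fun n => W (u n)) n) :=
    MeasurableSet.disjointed fun n => (h1 _ (hu n)).measurableSet
  have e : S = ⋃ n, S ∩ disjointed (fun n => W (u n)) n := by
    rw [← inter_iUnion, iUnion_disjointed, eq_comm, inter_eq_left]
    intro x hx
    obtain ⟨_, ⟨n, rfl⟩, hn⟩ := mem_iUnion₂.1 (ht (hSK hx))
    exact mem_iUnion.2 ⟨n, hn⟩
  calc P S = P (⋃ n, S ∩ disjointed (fun n => W (u n)) n) := by rw [← e]
    _ ≤ ∑' n, P (S ∩ disjointed (fun n => W (u n)) n) := hP _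
    _ ≤ ∑' n, ν (S ∩ disjointed (fun n => W (u n)) n) := ENNReal.tsum_le_tsum fun n =>
        h3 _ (hu n) _ (inter_subset_right.trans (disjointed_subset _ n)) (hS.inter (hm n))
    _ = ν S := by
        rw [← measure_iUnion (fun i j hij => ((disjoint_disjointed _ hij).mono inter_subset_right
          inter_subset_right)) fun n => hS.inter (hm n), ← e]

theorem meas_le_of_loc {μ ν : Measure X} {K : Set X} (hK : IsLindelof K)
    (h : ∀ x ∈ K, ∃ W, IsOpen W ∧ x ∈ W ∧ ∀ S ⊆ W, MeasurableSet S → μ S ≤ ν S)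
    {S : Set X} (hS : MeasurableSet S) (hSK : S ⊆ K) : μ S ≤ ν S :=
  le_of_loc (P := μ) measure_empty measure_iUnion_le hK h hS hSK

end Top

variable {E : Type} [NormedAddCommGroup E] [NormedSpace ℝ E] [FiniteDimensional ℝ E]

/-- the density of a single form -/
def den (B : Bil E) : ℝ :=
  √(Matrix.det (Matrix.of fun i j : Fin (finrank ℝ E) => B (finBasis ℝ E i) (finBasis ℝ E j)))

theorem dens_eq (G : E → Bil E) (z : E) : dens G z = den (G z) := rfl

theorem den_nonneg (B : Bil E) : 0 ≤ den B := Real.sqrt_nonneg _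

omit [FiniteDimensional ℝ E] in
theorem det_gram {ι : Type} [Fintype ι] [DecidableEq ι] (b : Basis ι ℝ E) (B : Bil E) (v : ι → E) :
    (Matrix.of fun i j => B (v i) (v j)).det =
      b.det v ^ 2 * (Matrix.of fun i j => B (b i) (b j)).det := by
  have h : (Matrix.of fun i j => B (v i) (v j)) =
      (b.toMatrix v).transpose * (Matrix.of fun i j => B (b i) (b j)) * b.toMatrix v := by
    ext i j
    conv_lhs => rw [Matrix.of_apply, ← b.sum_repr (v i), ← b.sum_repr (v j)]
    simp only [map_sum, map_smul, sum_apply, smul_apply, smul_eq_mul,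
      Matrix.mul_apply, Matrix.transpose_apply, Basis.toMatrix_apply, Matrix.of_apply,
      Finset.mul_sum, Finset.sum_mul]
    exact Finset.sum_congr rfl fun k _ => Finset.sum_congr rfl fun m _ => by ring
  rw [h, Matrix.det_mul, Matrix.det_mul, Matrix.det_transpose, b.det_apply]; ring

omit [FiniteDimensional ℝ E] in
theorem sqrt_det_gram {ι : Type} [Fintype ι] [DecidableEq ι] (b : Basis ι ℝ E) (B : Bil E)
    (v : ι → E) : √(Matrix.of fun i j => B (v i) (v j)).det =
      |b.det v| * √(Matrix.of fun i j => B (b i) (b j)).det := by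
  rw [det_gram b, Real.sqrt_mul (sq_nonneg _), Real.sqrt_sq_eq_abs]

theorem den_comp (B : Bil E) (L : E →L[ℝ] E) : den (B.bilinearComp L L) = |L.det| * den B := by
  have h := sqrt_det_gram (finBasis ℝ E) B ((L : E →ₗ[ℝ] E) ∘ finBasis ℝ E)
  rw [Basis.det_comp, Basis.det_self, mul_one] at h
  exact h

theorem den_smul (c : ℝ) (hc : 0 ≤ c) (B : Bil E) :
    den ((c ^ 2) • B) = c ^ finrank ℝ E * den B := by
  have h := den_comp B (c • ContinuousLinearMap.id ℝ E)
  have e : B.bilinearComp (c • ContinuousLinearMap.id ℝ E) (c • ContinuousLinearMap.id ℝ E) =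
      (c ^ 2) • B := by
    ext v w; simp; ring
  have e2 : (c • ContinuousLinearMap.id ℝ E).det = c ^ finrank ℝ E := by
    simp [ContinuousLinearMap.det, LinearMap.det_smul]
  rw [← e, h, e2, abs_of_nonneg (pow_nonneg hc _)]

theorem continuous_den : Continuous (den : Bil E → ℝ) :=
  Real.continuous_sqrt.comp (Continuous.matrix_det (continuous_matrix fun i j => by
    simp only [Matrix.of_apply]; fun_prop))

variable [MeasurableSpace E] [BorelSpace E]

/-- the reference Haar measure -/
abbrev haar (E : Type) [NormedAddCommGroup E] [NormedSpace ℝ E] [FiniteDimensional ℝ E]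
    [MeasurableSpace E] [BorelSpace E] : Measure E := (finBasis ℝ E).addHaar

variable {M : Type} [TopologicalSpace M] [ChartedSpace E M] [MeasurableSpace M] [BorelSpace M]
  {N : Type} [TopologicalSpace N] [ChartedSpace E N] [MeasurableSpace N] [BorelSpace N]

omit [NormedSpace ℝ E] [FiniteDimensional ℝ E] in
theorem meas_chart_image {a : M} {S : Set M} (hS : MeasurableSet S)
    (ha : S ⊆ (chartAt E a).source) : MeasurableSet (chartAt E a '' S) := by
  rw [(chartAt E a).image_eq_target_inter_inv_preimage ha]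
  exact meas_inter_preimage (chartAt E a).open_target.measurableSet
    (chartAt E a).continuousOn_symm hS

variable [IsManifold 𝓘(ℝ, E) ∞ M] [IsManifold 𝓘(ℝ, E) ∞ N]

omit [MeasurableSpace M] [BorelSpace M] in
/-- change of variables between charts -/
theorem cov (g : Ten E M) {f : N → M} {a : N} {b : M} {S : Set N} (hS : MeasurableSet S)
    (ha : S ⊆ (chartAt E a).source) (hb : MapsTo f S (chartAt E b).source)
    (hf : ∀ x ∈ S, MD E f x) (hi : InjOn f S) :
    ∫⁻ z in chartAt E b '' (f '' S), ENNReal.ofReal (dens (co g b) z) ∂haar E =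
      ∫⁻ z in chartAt E a '' S, ENNReal.ofReal (dens (co (comap f g) a) z) ∂haar E := by
  set τ : E → E := chartAt E b ∘ (f ∘ (chartAt E a).symm) with hτ
  have hm := meas_chart_image hS ha
  have e1 : chartAt E b '' (f '' S) = τ '' (chartAt E a '' S) := by
    simp only [image_image, hτ, Function.comp_apply]
    exact image_congr fun x hx => by rw [(chartAt E a).left_inv (ha hx)]
  have hd : ∀ z ∈ chartAt E a '' S, MD E (f ∘ (chartAt E a).symm) z ∧
      (f ∘ (chartAt E a).symm) z ∈ (chartAt E b).source ∧ z ∈ (chartAt E a).target ∧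
      MD E f ((chartAt E a).symm z) := by
    rintro _ ⟨x, hx, rfl⟩
    have h1 : MD E f ((chartAt E a).symm (chartAt E a x)) := by
      rw [(chartAt E a).left_inv (ha hx)]; exact hf x hx
    have h2 := (chartAt E a).map_source (ha hx)
    refine ⟨h1.comp _ (sm_symm h2).md, ?_, h2, h1⟩
    simp only [Function.comp_apply, (chartAt E a).left_inv (ha hx)]
    exact hb hx
  have hd' : ∀ z ∈ chartAt E a '' S, HasFDerivWithinAt τ (fderiv ℝ τ z) (chartAt E a '' S) z :=
    fun z hz => (((sm_chart (hd z hz).2.1).md.comp z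
      (hd z hz).1).differentiableAt.hasFDerivAt).hasFDerivWithinAt
  have hi' : InjOn τ (chartAt E a '' S) := by
    rintro _ ⟨x, hx, rfl⟩ _ ⟨y, hy, rfl⟩ h
    simp only [hτ, Function.comp_apply, (chartAt E a).left_inv (ha hx),
      (chartAt E a).left_inv (ha hy)] at h
    rw [hi hx hy ((chartAt E b).injOn (hb hx) (hb hy) h)]
  rw [e1, lintegral_image_eq_lintegral_abs_det_fderiv_mul _ hm hd' hi']
  refine setLIntegral_congr_fun hm fun z hz => ?_
  obtain ⟨h1, h2, h3, h4⟩ := hd z hz
  have e2 : co (comap f g) a z = (co g b (τ z)).bilinearComp (fderiv ℝ τ z) (fderiv ℝ τ z) := by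
    rw [co_comap g h3 h4, comap_eq g h1 h2, ← md_model]; rfl
  simp only [dens_eq, e2, den_comp]
  rw [ENNReal.ofReal_mul (abs_nonneg _)]

/-- the Riemannian measure of the domain of one chart -/
def chm (g : Ten E M) (a : M) : Measure M :=
  Measure.map (chartAt E a).symm
    (((haar E).withDensity fun z => ENNReal.ofReal (dens (co g a) z)).restrict (chartAt E a).target)

omit [IsManifold 𝓘(ℝ, E) ∞ M] in
theorem chm_apply (g : Ten E M) (a : M) {S : Set M} (hS : MeasurableSet S) : chm g a S =
    ∫⁻ z in chartAt E a '' (S ∩ (chartAt E a).source), ENNReal.ofReal (dens (co g a) z) ∂haar E := by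
  have ht := (chartAt E a).open_target.measurableSet
  have hs := hS.inter (chartAt E a).open_source.measurableSet
  have e : (chartAt E a).symm ⁻¹' S ∩ (chartAt E a).target =
      chartAt E a '' (S ∩ (chartAt E a).source) := by
    rw [(chartAt E a).image_eq_target_inter_inv_preimage inter_subset_right]
    ext z
    exact ⟨fun h => ⟨h.2, h.1, (chartAt E a).map_target h.2⟩, fun h => ⟨h.2.1, h.1⟩⟩
  rw [chm, Measure.map_apply_of_aemeasurable ((chartAt E a).continuousOn_symm.aemeasurable ht) hS,
    Measure.restrict_apply' ht, e, withDensity_apply _ (meas_chart_image hs inter_subset_right)]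

theorem chm_le (g : Ten E M) (a b : M) {S : Set M} (hS : MeasurableSet S)
    (ha : S ⊆ (chartAt E a).source) : chm g b S ≤ chm g a S := by
  have hs := hS.inter (chartAt E b).open_source.measurableSet
  have h := cov g (f := id) (a := a) (b := b) hs (inter_subset_left.trans ha)
    (fun _ hx => hx.2) (fun _ _ => mdifferentiableAt_id) (injOn_id _)
  rw [image_id, comap_id] at h
  rw [chm_apply g b hS, h, chm_apply g a hS]
  exact lintegral_mono_set (image_mono fun x hx => ⟨hx.1, ha hx.1⟩)

/-- the Riemannian measure exists -/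
theorem isVol_vol (g : Ten E M) : IsVol g (vol g) := by
  refine Classical.epsilon_spec (p := IsVol g) ⟨⨆ a, chm g a, fun a S hS ha => ?_⟩
  have ho := (chartAt E a).open_source.measurableSet
  have h1 : (⨆ b, chm g b) ≤ chm g a + (⊤ : Measure M).restrict (chartAt E a).sourceᶜ := by
    refine iSup_le fun b => Measure.le_iff.2 fun T hT => ?_
    rw [← measure_inter_add_sdiff T ho, Measure.add_apply, Measure.restrict_apply hT]
    exact add_le_add ((chm_le g a b (hT.inter ho) inter_subset_right).trans
      (measure_mono inter_subset_left)) (Measure.le_iff'.1 le_top _)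
  have h2 := Measure.le_iff'.1 h1 S
  rw [Measure.add_apply, Measure.restrict_apply hS,
    show S ∩ (chartAt E a).sourceᶜ = ∅ from sdiff_eq_empty.2 ha, measure_empty, add_zero] at h2
  rw [le_antisymm h2 (Measure.le_iff'.1 (le_iSup (chm g) a) S), chm_apply g a hS,
    inter_eq_self_of_subset_left ha]

theorem vol_chart (g : Ten E M) {a : M} {S : Set M} (hS : MeasurableSet S)
    (ha : S ⊆ (chartAt E a).source) :
    vol g S = ∫⁻ z in chartAt E a '' S, ENNReal.ofReal (dens (co g a) z) ∂haar E :=
  isVol_vol g a S hS ha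

/-- the measure on the model space -/
theorem vol_model (G : E → Bil E) :
    vol G = (haar E).withDensity fun z => ENNReal.ofReal (den (G z)) := by
  ext S hS
  rw [vol_chart G (a := 0) hS (subset_univ _), withDensity_apply _ hS, co_model]
  simp [dens_eq, chartAt_self_eq]

omit [MeasurableSpace E] [BorelSpace E] in
theorem LD.measEmb {f : N → M} {V : Set N} (h : LD E f V) (hi : InjOn f V) {S : Set N}
    (hS : MeasurableSet S) (hV : S ⊆ V) : MeasurableEmbedding (S.domRestrict f) := by
  have h1 : IsOpenEmbedding (V.domRestrict f) :=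
    .of_continuous_injective_isOpenMap h.smooth.continuousOn.domRestrict hi.injective fun W hW => by
      have := h.isOpen_image (h.isOpen.isOpenMap_subtype_val W hW) (Subtype.coe_image_subset V W)
      rwa [image_image] at this
  refine h1.measurableEmbedding.comp (g := V.domRestrict f) (f := inclusion hV)
    ⟨inclusion_injective hV, measurable_inclusion hV, fun T hT => ?_⟩
  have := measurable_subtype_coe (p := fun x => x ∈ V) (MeasurableSet.subtype_image hS hT)
  convert this using 1
  ext x
  exact ⟨fun ⟨y, h1, h2⟩ => ⟨y, h1, congrArg Subtype.val h2⟩,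
    fun ⟨y, h1, h2⟩ => ⟨y, h1, Subtype.ext h2⟩⟩

omit [MeasurableSpace E] [BorelSpace E] in
theorem LD.meas_image {f : N → M} {V : Set N} (h : LD E f V) (hi : InjOn f V) {S : Set N}
    (hS : MeasurableSet S) (hV : S ⊆ V) : MeasurableSet (f '' S) := by
  have := (h.measEmb hi hS hV).measurableSet_range
  rwa [range_domRestrict] at this

theorem vol_image_loc (g : Ten E M) {f : N → M} {V : Set N} (h : LD E f V) {x : N} (hx : x ∈ V) :
    ∃ W, IsOpen W ∧ x ∈ W ∧ ∀ S ⊆ W, MeasurableSet S → vol g (f '' S) = vol (comap f g) S := by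
  obtain ⟨k, -, k2, -⟩ := exists_inv (h.sm hx) (h.inj x hx)
  have h1 : ∀ᶠ z in 𝓝 x, f z ∈ (chartAt E (f x)).source :=
    h.continuousAt hx ((chartAt E (f x)).open_source.mem_nhds (mem_chart_source E _))
  obtain ⟨W, hW, Wo, Wx⟩ := mem_nhds_iff.1 (inter_mem (inter_mem k2 h1) (inter_mem
    (h.isOpen.mem_nhds hx) ((chartAt E x).open_source.mem_nhds (mem_chart_source E x))))
  have hi : InjOn f W := fun a ha b hb e => by
    have h2 : k (f a) = a := (hW ha).1.1
    have h3 : k (f b) = b := (hW hb).1.1
    rw [← h2, e, h3]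
  refine ⟨W, Wo, Wx, fun S hSW hS => ?_⟩
  have hb : MapsTo f S (chartAt E (f x)).source := fun y hy => (hW (hSW hy)).1.2
  have ha : S ⊆ (chartAt E x).source := fun y hy => (hW (hSW hy)).2.2
  rw [vol_chart g ((h.mono Wo fun y hy => (hW hy).2.1).meas_image hi hS hSW) hb.image_subset,
    vol_chart _ hS ha]
  exact cov g hS ha hb (fun y hy => h.md (hW (hSW hy)).2.1) (hi.mono hSW)

/-- the volume of the image under a local diffeomorphism -/
theorem vol_image_le (g : Ten E M) {f : N → M} {V K S : Set N} (h : LD E f V) (hK : IsLindelof K)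
    (hKV : K ⊆ V) (hS : MeasurableSet S) (hSK : S ⊆ K) : vol g (f '' S) ≤ vol (comap f g) S :=
  le_of_loc (P := fun S => vol g (f '' S)) (by simp)
    (fun s => by rw [image_iUnion]; exact measure_iUnion_le _) hK
    (fun x hx => (vol_image_loc g h (hKV hx)).imp fun _ hW =>
      ⟨hW.1, hW.2.1, fun S h1 h2 => (hW.2.2 S h1 h2).le⟩) hS hSK

/-- the volume of the image under an injective local diffeomorphism -/
theorem vol_image (g : Ten E M) {f : N → M} {V K S : Set N} (h : LD E f V) (hi : InjOn f V)
    (hK : IsLindelof K) (hKV : K ⊆ V) (hS : MeasurableSet S) (hSK : S ⊆ K) :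
    vol g (f '' S) = vol (comap f g) S := by
  refine le_antisymm (vol_image_le g h hK hKV hS hSK) ?_
  have hV := h.isOpen.measurableSet
  have he := h.measEmb hi hV Subset.rfl
  have e : ∀ T ⊆ V, MeasurableSet T →
      Measure.map (Subtype.val : V → N) ((vol g).comap (V.domRestrict f)) T = vol g (f '' T) := by
    intro T hTV hT
    rw [Measure.map_apply measurable_subtype_coe hT, he.comap_apply]
    congr 1
    ext y
    exact ⟨fun ⟨x, h1, h2⟩ => ⟨x, h1, h2⟩, fun ⟨x, h1, h2⟩ => ⟨⟨x, hTV h1⟩, h1, h2⟩⟩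
  rw [← e S (hSK.trans hKV) hS]
  refine meas_le_of_loc hK (fun x hx => ?_) hS hSK
  obtain ⟨W, h1, h2, h3⟩ := vol_image_loc g h (hKV hx)
  refine ⟨W ∩ V, h1.inter h.isOpen, ⟨h2, hKV hx⟩, fun T hT hT' => ?_⟩
  rw [e T (hT.trans inter_subset_right) hT', h3 T (hT.trans inter_subset_left) hT']

theorem vol_restrict_image (g : Ten E M) {f : N → M} {V K S : Set N} (h : LD E f V)
    (hi : InjOn f V) (hK : IsLindelof K) (hKV : K ⊆ V) (hS : MeasurableSet S) (hSK : S ⊆ K) :
    (vol g).restrict (f '' S) =
      Measure.map (S.domRestrict f) ((vol (comap f g)).comap (Subtype.val : S → N)) := by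
  have he := h.measEmb hi hS (hSK.trans hKV)
  ext T hT
  have hm : MeasurableSet (S ∩ f ⁻¹' T) :=
    meas_inter_preimage hS (h.smooth.continuousOn.mono (hSK.trans hKV)) hT
  rw [Measure.restrict_apply hT, he.map_apply, (MeasurableEmbedding.subtype_coe hS).comap_apply,
    inter_comm, ← image_inter_preimage, vol_image g h hi hK hKV hm (inter_subset_left.trans hSK)]
  congr 1
  ext x
  simp [and_comm]

theorem lintegral_image (g : Ten E M) {f : N → M} {V K S : Set N} (h : LD E f V)
    (hi : InjOn f V) (hK : IsLindelof K) (hKV : K ⊆ V) (hS : MeasurableSet S) (hSK : S ⊆ K)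
    (φ : M → ℝ≥0∞) : ∫⁻ y in f '' S, φ y ∂vol g = ∫⁻ x in S, φ (f x) ∂vol (comap f g) := by
  rw [vol_restrict_image g h hi hK hKV hS hSK, (h.measEmb hi hS (hSK.trans hKV)).lintegral_map]
  exact lintegral_subtype_comap hS fun x => φ (f x)

theorem integral_image (g : Ten E M) {f : N → M} {V K S : Set N} (h : LD E f V)
    (hi : InjOn f V) (hK : IsLindelof K) (hKV : K ⊆ V) (hS : MeasurableSet S) (hSK : S ⊆ K)
    (φ : M → ℝ) : ∫ y in f '' S, φ y ∂vol g = ∫ x in S, φ (f x) ∂vol (comap f g) := by
  rw [vol_restrict_image g h hi hK hKV hS hSK, (h.measEmb hi hS (hSK.trans hKV)).integral_map]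
  exact integral_subtype_comap hS fun x => φ (f x)

theorem integrableOn_image (g : Ten E M) {f : N → M} {V K S : Set N} (h : LD E f V)
    (hi : InjOn f V) (hK : IsLindelof K) (hKV : K ⊆ V) (hS : MeasurableSet S) (hSK : S ⊆ K)
    (φ : M → ℝ) : IntegrableOn φ (f '' S) (vol g) ↔
      IntegrableOn (fun x => φ (f x)) S (vol (comap f g)) := by
  rw [IntegrableOn, vol_restrict_image g h hi hK hKV hS hSK,
    (h.measEmb hi hS (hSK.trans hKV)).integrable_map_iff, integrableOn_iff_comap_subtypeVal hS]
  rfl

end Vale.Agent.P216R
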