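import Vale.Agent.P216FI.Vol
import Vale.Agent.P216BF.ONB
import Mathlib.Analysis.Matrix.Spectrum

/-!
# The Riemannian measure: comparison, finiteness, positivity, explicit formulas
-/

open Set Topology MeasureTheory Module
open Filter hiding comap comap_id
open scoped ContDiff Manifold ENNReal

set_option maxSynthPendingDepth 3

noncomputable section

namespace Vale.Agent.P216R

open Vale.Agent.P210.R2.H53 (dens)
open Vale.Agent.P216BF

variable {E : Type} [NormedAddCommGroup E] [NormedSpace ℝ E] [FiniteDimensional ℝ E]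

theorem den_eq_basis {ι : Type} [Fintype ι] [DecidableEq ι] (b : Basis ι ℝ E) :
    ∃ c > 0, ∀ B : Bil E, den B = c * √(Matrix.of fun i j => B (b i) (b j)).det := by
  let e : ι ≃ Fin (finrank ℝ E) := b.indexEquiv (finBasis ℝ E)
  refine ⟨|(b.reindex e).det (finBasis ℝ E)|,
    abs_pos.2 ((b.reindex e).isUnit_det (finBasis ℝ E)).ne_zero, fun B => ?_⟩
  rw [den, sqrt_det_gram (b.reindex e), ← Matrix.det_submatrix_equiv_self e.symm]
  congr 3
  ext i j
  simp

theorem det_le_one {A B : Bil E} {ι : Type} [Fintype ι] [DecidableEq ι] {e : ι → E} (he : ONB B e)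
    (hs : ∀ v w, A v w = A w v) (h0 : ∀ v, 0 ≤ A v v) (h : ∀ v, A v v ≤ B v v) :
    (Matrix.of fun i j => A (e i) (e j)).det ≤ 1 := by
  have hH : (Matrix.of fun i j => A (e i) (e j)).IsHermitian := by
    ext i j; simp [hs (e j)]
  rw [hH.det_eq_prod_eigenvalues]
  have k : ∀ i, hH.eigenvalues i = A (∑ j, hH.eigenvectorBasis i j • e j)
      (∑ j, hH.eigenvectorBasis i j • e j) := fun i => by
    rw [hH.eigenvalues_eq]
    simp only [map_sum, map_smul, sum_apply, smul_apply, smul_eq_mul, dotProduct, Matrix.mulVec,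
      Matrix.of_apply, star_trivial, RCLike.re_to_real, Finset.mul_sum]
    exact Finset.sum_congr rfl fun k _ => Finset.sum_congr rfl fun m _ => by rw [hs (e m)]; ring
  have k1 : ∀ i, B (∑ j, hH.eigenvectorBasis i j • e j) (∑ j, hH.eigenvectorBasis i j • e j) = 1 :=
    fun i => by
      have h1 := hH.eigenvectorBasis.orthonormal.1 i
      rw [EuclideanSpace.norm_eq, Real.sqrt_eq_one] at h1
      rw [map_sum, ← h1]
      refine Finset.sum_congr rfl fun j _ => ?_
      rw [map_smul, he.sum_left, smul_eq_mul, Real.norm_eq_abs, sq_abs, sq]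
  exact Finset.prod_le_one (fun i _ => by rw [RCLike.ofReal_real_eq_id, id, k]; exact h0 _)
    fun i _ => by rw [RCLike.ofReal_real_eq_id, id, k, ← k1 i]; exact h _

theorem den_mono {A B : Bil E} (hB : PD B) (hs : ∀ v w, A v w = A w v) (h0 : ∀ v, 0 ≤ A v v)
    (h : ∀ v, A v v ≤ B v v) : den A ≤ den B := by
  obtain ⟨e, he⟩ := hB.exists_onb
  obtain ⟨b, hb, -⟩ := he.exists_basis
  obtain ⟨c, hc, h1⟩ := den_eq_basis b
  have e1 : (Matrix.of fun i j => B (b i) (b j)) = 1 := by
    ext i j; simp [hb, he.on, Matrix.one_apply]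
  rw [h1, h1, e1, Matrix.det_one]
  simp only [hb]
  exact mul_le_mul_of_nonneg_left (Real.sqrt_le_sqrt (det_le_one he hs h0 h)) hc.le

theorem den_pos {B : Bil E} (hB : PD B) : 0 < den B := by
  obtain ⟨e, he⟩ := hB.exists_onb
  obtain ⟨b, hb, -⟩ := he.exists_basis
  obtain ⟨c, hc, h1⟩ := den_eq_basis b
  have e1 : (Matrix.of fun i j => B (b i) (b j)) = 1 := by
    ext i j; simp [hb, he.on, Matrix.one_apply]
  rw [h1, e1]
  simpa using hc

theorem den_le_mul {A B : Bil E} (hB : PD B) (hs : ∀ v w, A v w = A w v) (h0 : ∀ v, 0 ≤ A v v)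
    {c : ℝ} (hc : 0 < c) (h : ∀ v, A v v ≤ c ^ 2 * B v v) :
    den A ≤ c ^ finrank ℝ E * den B := by
  rw [← den_smul c hc.le]
  exact den_mono ⟨fun v w => by simp [hB.symm v w], fun v hv => by
    simpa using mul_pos (pow_pos hc 2) (hB.pos v hv)⟩ hs h0 fun v => by simpa using h v

variable [MeasurableSpace E] [BorelSpace E]

theorem haar_eq_basis {ι : Type} [Fintype ι] [DecidableEq ι] (b : Basis ι ℝ E) :
    ∃ c > 0, b.addHaar = ENNReal.ofReal c • haar E ∧
      ∀ B : Bil E, den B = c * √(Matrix.of fun i j => B (b i) (b j)).det := by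
  let e : ι ≃ Fin (finrank ℝ E) := b.indexEquiv (finBasis ℝ E)
  refine ⟨|(b.reindex e).det (finBasis ℝ E)|,
    abs_pos.2 ((b.reindex e).isUnit_det (finBasis ℝ E)).ne_zero, ?_, fun B => ?_⟩
  · rw [← b.addHaar_reindex e, ← Measure.addHaar_parallelepiped, haar,
      (finBasis ℝ E).addHaar_def, ← Basis.coe_parallelepiped]
    exact Measure.addHaarMeasure_unique _ _
  · rw [den, sqrt_det_gram (b.reindex e), ← Matrix.det_submatrix_equiv_self e.symm]
    congr 3
    ext i j
    simp

/-- the measure on the model space in any basis -/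
theorem vol_basis {ι : Type} [Fintype ι] [DecidableEq ι] (b : Basis ι ℝ E) (G : E → Bil E) :
    vol G = b.addHaar.withDensity fun z =>
      ENNReal.ofReal √(Matrix.of fun i j => G z (b i) (b j)).det := by
  obtain ⟨c, hc, h1, h2⟩ := haar_eq_basis b
  rw [vol_model, h1, withDensity_smul_measure, ← withDensity_smul' _ _ ENNReal.ofReal_ne_top]
  congr 1
  funext z
  rw [h2, ENNReal.ofReal_mul hc.le]; rfl

/-- the measure on Euclidean space -/
theorem vol_euc {ι : Type} [Fintype ι] [DecidableEq ι]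
    (G : EuclideanSpace ℝ ι → Bil (EuclideanSpace ℝ ι)) :
    vol G = volume.withDensity fun z => ENNReal.ofReal √(Matrix.of fun i j : ι =>
      G z (EuclideanSpace.single i 1) (EuclideanSpace.single j 1)).det := by
  rw [vol_basis (EuclideanSpace.basisFun ι ℝ).toBasis, OrthonormalBasis.addHaar_eq_volume]
  simp

variable {M : Type} [TopologicalSpace M] [ChartedSpace E M] [MeasurableSpace M] [BorelSpace M]
  [IsManifold 𝓘(ℝ, E) ∞ M] {g h : Ten E M} {U K S : Set M}

omit [MeasurableSpace E] [BorelSpace E] [MeasurableSpace M] [BorelSpace M]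
  [IsManifold 𝓘(ℝ, E) ∞ M] in
theorem den_co (g : Ten E M) (a : M) (z : E) : den (co g a z) =
    |(md E (chartAt E a).symm z).det| * den (g ((chartAt E a).symm z)) := den_comp _ _

/-- comparison of volumes from comparison of densities -/
theorem vol_le_of_den (hK : IsLindelof K) (hS : MeasurableSet S) (hSK : S ⊆ K) {c : ℝ}
    (hc : 0 ≤ c) (H : ∀ x ∈ S, den (g x) ≤ c * den (h x)) :
    vol g S ≤ ENNReal.ofReal c * vol h S := by
  have := meas_le_of_loc (μ := (vol g).restrict S) (ν := ENNReal.ofReal c • (vol h).restrict S) hK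
    (fun x _ => ⟨_, (chartAt E x).open_source, mem_chart_source E x, fun T hT hT' => ?_⟩) hS hSK
  · simpa using this
  have h1 := hT'.inter hS
  have h2 : T ∩ S ⊆ (chartAt E x).source := inter_subset_left.trans hT
  rw [Measure.smul_apply, Measure.restrict_apply hT', Measure.restrict_apply hT',
    vol_chart g h1 h2, vol_chart h h1 h2, smul_eq_mul,
    ← lintegral_const_mul' _ _ ENNReal.ofReal_ne_top]
  refine setLIntegral_mono' (meas_chart_image h1 h2) ?_
  rintro _ ⟨y, hy, rfl⟩
  rw [← ENNReal.ofReal_mul hc, dens_eq, dens_eq, den_co, den_co, (chartAt E x).left_inv (h2 hy),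
    mul_left_comm]
  exact ENNReal.ofReal_le_ofReal (mul_le_mul_of_nonneg_left (H y hy.2) (abs_nonneg _))

theorem vol_congr (hK : IsLindelof K) (hS : MeasurableSet S) (hSK : S ⊆ K) (H : EqOn g h S) :
    vol g S = vol h S := by
  refine le_antisymm ?_ ?_
  · simpa using vol_le_of_den (g := g) (h := h) hK hS hSK zero_le_one fun x hx => by simp [H hx]
  · simpa using vol_le_of_den (g := h) (h := g) hK hS hSK zero_le_one fun x hx => by simp [H hx]

omit [FiniteDimensional ℝ E] [MeasurableSpace E] [BorelSpace E] [MeasurableSpace M] [BorelSpace M]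
  [IsManifold 𝓘(ℝ, E) ∞ M] in
theorem Met.pd (hg : Met g U) {x : M} (hx : x ∈ U) : PD (g x) := ⟨hg.symm x hx, hg.pos x hx⟩

/-- comparison of volumes from comparison of metrics -/
theorem vol_le_mul (hK : IsLindelof K) (hS : MeasurableSet S) (hSK : S ⊆ K) {c : ℝ} (hc : 0 < c)
    (hg : ∀ x ∈ S, PD (g x)) (hh : ∀ x ∈ S, PD (h x))
    (H : ∀ x ∈ S, ∀ v, g x v v ≤ c ^ 2 * h x v v) :
    vol g S ≤ ENNReal.ofReal (c ^ finrank ℝ E) * vol h S :=
  vol_le_of_den hK hS hSK (pow_pos hc _).le fun x hx =>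
    den_le_mul (hh x hx) (hg x hx).symm (hg x hx).nonneg hc (H x hx)

theorem vol_mono_met (hK : IsLindelof K) (hS : MeasurableSet S) (hSK : S ⊆ K)
    (hg : ∀ x ∈ S, PD (g x)) (hh : ∀ x ∈ S, PD (h x)) (H : ∀ x ∈ S, ∀ v, g x v v ≤ h x v v) :
    vol g S ≤ vol h S := by
  simpa using vol_le_mul hK hS hSK one_pos hg hh fun x hx v => by simpa using H x hx v

theorem vol_smul (hK : IsLindelof K) (hS : MeasurableSet S) (hSK : S ⊆ K) {c : ℝ} (hc : 0 < c)
    (g : Ten E M) : vol ((c ^ 2) • g) S = ENNReal.ofReal (c ^ finrank ℝ E) * vol g S := by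
  have hp := pow_pos hc (finrank ℝ E)
  refine le_antisymm (vol_le_of_den hK hS hSK hp.le fun x _ => (den_smul c hc.le _).le) ?_
  have h1 := vol_le_of_den (g := g) (h := (c ^ 2) • g) hK hS hSK (inv_pos.2 hp).le fun x _ => by
    rw [Pi.smul_apply, den_smul c hc.le, ← mul_assoc, inv_mul_cancel₀ hp.ne', one_mul]
  refine (mul_le_mul_right h1 _).trans_eq ?_
  rw [← mul_assoc, ← ENNReal.ofReal_mul hp.le, mul_inv_cancel₀ hp.ne', ENNReal.ofReal_one, one_mul]

omit [MeasurableSpace E] [BorelSpace E] [MeasurableSpace M] [BorelSpace M]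
  [IsManifold 𝓘(ℝ, E) ∞ M] in
theorem Met.continuousOn_dens (hg : Met g U) (a : M) :
    ContinuousOn (dens (co g a)) (dom E a U) :=
  continuous_den.comp_continuousOn (hg.smooth a).continuousOn

theorem vol_loc_lt_top (hg : Met g U) {x : M} (hx : x ∈ U) : ∃ W ∈ 𝓝 x, vol g W < ⊤ := by
  have : ProperSpace E := FiniteDimensional.proper ℝ E
  have hd := (isOpen_dom (E := E) x hg.isOpen).mem_nhds (pt_mem_dom hx)
  obtain ⟨r, hr, hb⟩ := Metric.nhds_basis_closedBall.mem_iff.1 hd
  have ho : IsOpen ((chartAt E x).source ∩ chartAt E x ⁻¹' Metric.ball (pt E x) r) :=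
    (chartAt E x).isOpen_inter_preimage Metric.isOpen_ball
  refine ⟨_, ho.mem_nhds ⟨mem_chart_source E x, Metric.mem_ball_self hr⟩, ?_⟩
  rw [vol_chart g ho.measurableSet inter_subset_left]
  have hc := isCompact_closedBall (pt E x) r
  refine (lintegral_mono_set (t := Metric.closedBall (pt E x) r) ?_).trans_lt ?_
  · rintro _ ⟨y, hy, rfl⟩
    exact Metric.ball_subset_closedBall hy.2
  · exact (((hg.continuousOn_dens x).mono hb).integrableOn_compact hc).lintegral_lt_top

/-- compact sets have finite volume -/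
theorem vol_lt_top (hg : Met g U) (hK : IsCompact K) (hKU : K ⊆ U) : vol g K < ⊤ :=
  hK.measure_lt_top_of_nhdsWithin fun x hx => by
    obtain ⟨W, h1, h2⟩ := vol_loc_lt_top hg (hKU hx)
    exact ⟨W, mem_nhdsWithin_of_mem_nhds h1, h2⟩

theorem isFiniteMeasure_vol (hg : Met g U) (hK : IsCompact K) (hKU : K ⊆ U) :
    IsFiniteMeasure ((vol g).restrict K) :=
  isFiniteMeasure_restrict.2 (vol_lt_top hg hK hKU).ne

/-- neighbourhoods of points of `U` have positive volume -/
theorem vol_pos (hg : Met g U) {x : M} (hx : x ∈ U) {W : Set M} (hW : W ∈ 𝓝 x) : 0 < vol g W := by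
  obtain ⟨V, h1, h2, h3⟩ := mem_nhds_iff.1 (inter_mem hW (inter_mem (hg.isOpen.mem_nhds hx)
    ((chartAt E x).open_source.mem_nhds (mem_chart_source E x))))
  have hs : V ⊆ (chartAt E x).source := fun y hy => (h1 hy).2.2
  refine lt_of_lt_of_le ?_ (measure_mono fun y hy => (h1 hy).1)
  have ho : IsOpen (chartAt E x '' V) := (chartAt E x).isOpen_image_of_subset_source h2 hs
  have hd : chartAt E x '' V ⊆ dom E x U := by
    rintro _ ⟨y, hy, rfl⟩
    exact mem_dom (hs hy) (h1 hy).2.1
  rw [vol_chart g h2.measurableSet hs, pos_iff_ne_zero, Ne, lintegral_eq_zero_iff'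
    (((hg.continuousOn_dens x).mono hd).aemeasurable ho.measurableSet).ennreal_ofReal]
  intro h0
  have h4 : ∀ᵐ z ∂(haar E).restrict (chartAt E x '' V), False := by
    filter_upwards [h0, ae_restrict_mem ho.measurableSet] with z hz hz'
    have hm := hg.isMetricOn x
    have := den_pos (B := co g x z) ⟨hm.symm z (hd hz'), hm.pos z (hd hz')⟩
    exact absurd (ENNReal.ofReal_eq_zero.1 hz) (not_le.2 this)
  rw [eventually_false_iff_eq_bot, ae_eq_bot, Measure.restrict_eq_zero] at h4
  exact (ho.measure_pos (haar E) ⟨_, x, h3, rfl⟩).ne' h4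

theorem integrableOn_vol (hg : Met g U) (hK : IsCompact K) (hKU : K ⊆ U) (hm : MeasurableSet K)
    {f : M → ℝ} (hf : ContinuousOn f K) : IntegrableOn f K (vol g) := by
  obtain ⟨C, hC⟩ := hK.exists_bound_of_continuousOn hf
  have := isFiniteMeasure_vol hg hK hKU
  exact Integrable.of_bound (hf.aemeasurable hm).aestronglyMeasurable C
    ((ae_restrict_mem hm).mono hC)

end Vale.Agent.P216R
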