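import Vale.Agent.P216N.BDefs
import Vale.Agent.P216SG.Soft
import Vale.Agent.P216E.Vol
import Mathlib.MeasureTheory.Measure.Lebesgue.VolumeOfBalls

/-! # P216FI: necks are metric necks -/

open scoped Manifold ContDiff Topology ENNReal
open Set Metric Real MeasureTheory

set_option maxSynthPendingDepth 3

noncomputable section

namespace Vale.Agent.P216FI

open P216R P216SG P216DC P216N

variable {M : Type} [TopologicalSpace M] [ChartedSpace E3 M] [IsManifold 𝓘(ℝ, E3) ∞ M]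
  {g : Ten E3 M} {U : Set M} {φ : E3 → M} {B : Set E3} {a b x : E3} {m σ L : ℝ}

theorem emb_ed_le (hE : Emb φ B U) (hB : Convex ℝ B) (hm : 0 ≤ m)
    (up : ∀ u ∈ B, ∀ v, comap φ g u v v ≤ m ^ 2 * ‖v‖ ^ 2) (ha : a ∈ B) (hb : b ∈ B) :
    ed g U (φ a) (φ b) ≤ ENNReal.ofReal (m * ‖a - b‖) := by
  have := (hE.ld.ed_le hE.mem a b).trans (ed_le_norm hB ha hb up)
  rwa [sqrt_sq hm] at this

theorem emb_le_ed (hE : Emb φ B U) (hs : Hs U) (hm : 0 < m)
    (low : ∀ u ∈ B, ∀ v, m ^ 2 * ‖v‖ ^ 2 ≤ comap φ g u v v) (ha : a ∈ B)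
    (hb : closedBall a ‖a - b‖ ⊆ B) : ENNReal.ofReal (m * ‖a - b‖) ≤ ed g U (φ a) (φ b) := by
  refine not_lt.1 fun hlt => ?_
  have e : ∀ u v : E3, (fun _ => m ^ 2 • euc : E3 → Bil E3) u v v = m ^ 2 * ‖v‖ ^ 2 := fun u v =>
    congrArg (m ^ 2 * ·) (real_inner_self_eq_norm_sq v)
  have k : ∀ q, ENNReal.ofReal (m * ‖a - q‖) ≤ ed (fun _ => m ^ 2 • euc) B a q := fun q => by
    have := norm_le_ed (S := B) (fun u _ v => (e u v).ge) a q
    rwa [sqrt_sq hm.le] at this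
  obtain ⟨q, hq, e1, e2⟩ := ed_pull (g := fun _ => m ^ 2 • euc) hE.ld hE.inj hE.mem hs one_pos
    (fun u hu v => by rw [one_pow, one_mul]; exact (e u v).trans_le (low u hu v)) (isCompact_closedBall a ‖a - b‖)
    hb ha (fun q hq => by
      rw [ENNReal.ofReal_one, one_mul] at hq
      have := (ENNReal.ofReal_lt_ofReal_iff_of_nonneg (by positivity)).1 ((k q).trans_lt hq)
      rw [mem_closedBall', dist_eq_norm]
      exact (lt_of_mul_lt_mul_left this hm.le).le) hlt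
  rw [hE.inj (hb hq) (hb (by rw [mem_closedBall', dist_eq_norm])) e1, ENNReal.ofReal_one,
    one_mul] at e2
  exact absurd ((k b).trans e2) (not_le.2 hlt)

omit [IsManifold 𝓘(ℝ, E3) ∞ M] in
theorem tb_ball (hg : Met g U) (h : Tb g U φ (lan (-L) L) (7 / 5 * σ) (143 / 100 * σ))
    (hL : 1 ≤ L) (hx : ‖x‖ = 1) : Emb φ (ball x (3 / 20)) U ∧ ∀ u ∈ ball x (3 / 20), ∀ v,
      (6 / 5 * σ) ^ 2 * ‖v‖ ^ 2 ≤ comap φ g u v v ∧
        comap φ g u v v ≤ (17 / 10 * σ) ^ 2 * ‖v‖ ^ 2 := by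
  have h1 : ∀ u ∈ ball x (3 / 20), 17 / 20 ≤ ‖u‖ ∧ ‖u‖ ≤ 23 / 20 := fun u hu => by
    have := abs_le.1 ((abs_norm_sub_norm_le u x).trans (mem_ball_iff_norm.1 hu).le)
    constructor <;> linarith [this.1, this.2]
  have h2 : ball x (3 / 20) ⊆ lan (-L) L := fun u hu => by
    have e := add_one_le_exp L
    refine ⟨lt_of_lt_of_le ?_ (h1 u hu).1, by linarith [(h1 u hu).2]⟩
    rw [exp_neg, inv_lt_comm₀ (exp_pos _) (by norm_num)]
    linarith
  refine ⟨h.emb.mono isOpen_ball h2, fun u hu v => ?_⟩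
  have k1 := h.low u (h2 hu) v
  have k2 := h.up u (h2 hu) v
  have k3 : 0 ≤ comap φ g u v v := hg.nonneg (h.emb.mem (h2 hu)) _
  have k4 := mul_le_mul_of_nonneg_right (pow_le_pow_left₀ (by norm_num) (h1 u hu).1 2) k3
  have k5 := mul_le_mul_of_nonneg_right (pow_le_pow_left₀ (norm_nonneg _) (h1 u hu).2 2) k3
  have k6 : 0 ≤ σ ^ 2 * ‖v‖ ^ 2 := by positivity
  constructor <;> nlinarith

theorem tb_lev (h : Tb g U φ (lan (-L) L) (7 / 5 * σ) (143 / 100 * σ)) (hs : Hs U)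
    (hL : 2200 ≤ L) (hx : ‖x‖ = 1) : ∃ z : M → ℝ, ∀ p ∈ bl g U (φ x) (1000 * σ),
      ∀ q ∈ bl g U (φ x) (1000 * σ), |z p - z q| ≤ dd g U p q ∧
        dd g U p q ≤ 2 * |z p - z q| + 5 * σ := by
  have hσ : 0 < σ := by linarith [h.pos]
  have h0 : lv x = 0 := by rw [lv, hx, log_one]
  have : Nonempty E3 := ⟨x⟩
  have h1 : bl g U (φ x) (1000 * σ) ⊆ φ '' lan (-715) 715 := by
    have := h.bl_sub (d := 715) hs (mem_lan.2 ⟨norm_pos_iff.1 (hx ▸ one_pos), by linarith,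
      by linarith⟩) (by linarith) (by linarith)
    rw [h0, zero_sub, zero_add] at this
    exact (bl_mono (by linarith)).trans this
  have h2 : lan (-715) 715 ⊆ lan (-L) L := lan_mono (by linarith) (by linarith)
  refine ⟨fun p => 7 / 5 * σ * lv (Function.invFunOn φ (lan (-L) L) p), fun p hp q hq => ?_⟩
  obtain ⟨a, ha, rfl⟩ := h1 hp
  obtain ⟨b, hb, rfl⟩ := h1 hq
  obtain ⟨-, a1, a2⟩ := mem_lan.1 ha
  obtain ⟨-, b1, b2⟩ := mem_lan.1 hb
  have k0 : |lv a - lv b| ≤ 1430 := abs_le.2 ⟨by linarith, by linarith⟩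
  have k1 := h.ed_le (h2 ha) (h2 hb)
  have k2 := h.le_ed_lv hs (h2 ha) (h2 hb) (d := |lv a - lv b|) (by linarith) (by linarith) le_rfl
  have k3 := abs_nonneg (lv a - lv b)
  simp only [h.emb.inj.leftInvOn_invFunOn (h2 ha), h.emb.inj.leftInvOn_invFunOn (h2 hb)]
  rw [← mul_sub, abs_mul, abs_of_pos h.pos]
  refine ⟨(ENNReal.ofReal_le_iff_le_toReal (ne_top_of_le_ne_top ENNReal.ofReal_ne_top k1)).1 k2,
    (ENNReal.toReal_le_of_le_ofReal (by positivity) k1).trans ?_⟩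
  nlinarith [pi_lt_d2, mul_nonneg hσ.le k3]

theorem tb_fat (hg : Met g U) (h : Tb g U φ (lan (-L) L) (7 / 5 * σ) (143 / 100 * σ)) (hs : Hs U)
    (hL : 1 ≤ L) (hx : ‖x‖ = 1) : ∃ a : Fin 3 → M, (∀ i, a i ∈ bl g U (φ x) σ) ∧
      ∀ i j, i ≠ j → σ / 10 ≤ dd g U (a i) (a j) ∧ dd g U (a i) (a j) ≤ 3 * σ / 20 := by
  have hσ : 0 < σ := by linarith [h.pos]
  obtain ⟨hE, hc⟩ := tb_ball hg h hL hx
  let e : Fin 3 → E3 := fun i => x + EuclideanSpace.single i (3 / 50)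
  have h1 : ∀ i, ‖x - e i‖ = 3 / 50 := fun i => by simp [e]
  have h2 : ∀ i, e i ∈ ball x (3 / 20) := fun i => by
    rw [mem_ball', dist_eq_norm, h1]; norm_num
  have up := fun a ha b hb => emb_ed_le (a := a) (b := b) hE (convex_ball _ _) (by positivity)
    (fun u hu v => (hc u hu v).2) ha hb
  refine ⟨fun i => φ (e i), fun i => (up x (mem_ball_self (by norm_num)) _ (h2 i)).trans_lt
    ((ENNReal.ofReal_lt_ofReal_iff hσ).2 (by rw [h1]; linarith)), fun i j hij => ?_⟩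
  have h3 : ‖e i - e j‖ ^ 2 = 9 / 1250 := by
    rw [EuclideanSpace.real_norm_sq_eq, Fin.sum_univ_three]
    fin_cases i <;> fin_cases j <;> simp [e] at hij ⊢ <;> norm_num
  have h4 : 21 / 250 ≤ ‖e i - e j‖ := le_of_sq_le_sq (by rw [h3]; norm_num) (norm_nonneg _)
  have h5 : ‖e i - e j‖ ≤ 11 / 125 := le_of_sq_le_sq (by rw [h3]; norm_num) (by norm_num)
  have k1 := up _ (h2 i) _ (h2 j)
  have k2 := emb_le_ed (b := e j) hE hs (by positivity) (fun u hu v => (hc u hu v).1) (h2 i)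
    (closedBall_subset_ball' (by rw [dist_comm, dist_eq_norm, h1]; linarith))
  refine ⟨le_trans ?_ ((ENNReal.ofReal_le_iff_le_toReal
    (ne_top_of_le_ne_top ENNReal.ofReal_ne_top k1)).1 k2),
    (ENNReal.toReal_le_of_le_ofReal (by positivity) k1).trans ?_⟩ <;> nlinarith

theorem tb_vol [MeasurableSpace M] [BorelSpace M] (hg : Met g U)
    (h : Tb g U φ (lan (-L) L) (7 / 5 * σ) (143 / 100 * σ)) (hL : 1 ≤ L) (hx : ‖x‖ = 1) {s : ℝ}
    (hs : s ∈ Ioc (0 : ℝ) 1) : Vl ((3 / 20) ^ 3) g U (φ x) (s * σ) := by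
  have hσ : 0 < σ := by linarith [h.pos]
  obtain ⟨hE, hc⟩ := tb_ball hg h hL hx
  obtain ⟨s0, s1⟩ := hs
  have h1 : ball x (3 / 20 * s) ⊆ ball x (3 / 20) := ball_subset_ball (by linarith)
  have h2 : φ '' ball x (3 / 20 * s) ⊆ bl g U (φ x) (s * σ) := by
    rintro _ ⟨u, hu, rfl⟩
    refine (emb_ed_le hE (convex_ball _ _) (by positivity) (fun u hu v => (hc u hu v).2)
      (mem_ball_self (by norm_num)) (h1 hu)).trans_lt
      ((ENNReal.ofReal_lt_ofReal_iff (by positivity)).2 ?_)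
    rw [mem_ball', dist_eq_norm] at hu
    nlinarith [mul_pos s0 hσ]
  have hm := hg.comap hE.ld hE.mem
  have h3 := P216E.euc_le_vol (G := comap φ g) (inv_pos.2 hσ) measurableSet_ball
    (fun u hu => hm.pd (h1 hu)) fun u hu v => by
      rw [inv_pow, le_inv_mul_iff₀ (by positivity)]
      nlinarith [(hc u (h1 hu) v).1, mul_nonneg (sq_nonneg σ) (sq_nonneg ‖v‖)]
  refine le_trans ?_ (measure_mono h2)
  rw [vol_image g hE.ld hE.inj (HereditarilyLindelofSpace.isLindelof _) subset_rfl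
    measurableSet_ball h1]
  rw [finrank_euclideanSpace_fin, EuclideanSpace.volume_ball_fin_three, inv_pow,
    ENNReal.ofReal_inv_of_pos (by positivity), ← ENNReal.mul_le_iff_le_inv
      (ENNReal.ofReal_pos.2 (by positivity)).ne' ENNReal.ofReal_ne_top,
    ← ENNReal.ofReal_pow (by positivity), ← ENNReal.ofReal_mul (by positivity),
    ← ENNReal.ofReal_mul (by positivity)] at h3
  refine le_trans (ENNReal.ofReal_le_ofReal ?_) h3
  have := mul_pos (pow_pos s0 3) (pow_pos hσ 3)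
  nlinarith [pi_gt_three]

/-- necks are metric necks -/
theorem neckm : NECKM := by
  obtain ⟨ε, hε, H⟩ := exists_nf_bl (η := 1 / 200) (by norm_num) 1010
  refine ⟨min ε (1 / 2200), by positivity, (3 / 20) ^ 3, by positivity,
    fun M _ _ _ _ _ g U y h δ σ hg hs hδ hC hσ h1 => ?_⟩
  have K := H M g U y h δ hg hs hC (hδ.trans (min_le_left _ _))
  have hh := hC.hpos
  have hδ' := hδ.trans (min_le_right _ _)
  have k0 := abs_le.1 (K y (mem_bl_self hC.mem (by positivity))).sc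
  have k1 : h ^ 2 = h ^ 2 * Sc g y * σ ^ 2 := by rw [mul_assoc, mul_comm _ (σ ^ 2), h1, mul_one]
  have k2 : 199 / 200 * σ ^ 2 ≤ h ^ 2 := by nlinarith [sq_nonneg σ]
  have k3 : h ^ 2 ≤ 201 / 200 * σ ^ 2 := by nlinarith [sq_nonneg σ]
  have k4 : 199 / 200 * σ ≤ h := le_of_sq_le_sq (by nlinarith [sq_nonneg σ]) hh.le
  have k5 : h ≤ 201 / 200 * σ := le_of_sq_le_sq (by nlinarith [sq_nonneg σ]) (by positivity)
  obtain ⟨φ, N, x, hx, rfl⟩ := hC
  rw [mem_sphere_zero_iff_norm] at hx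
  have T := (N.tb' (lo := 141 / 100) (hi := 142 / 100) (by norm_num) (by norm_num) (by linarith)
    (by linarith)).weaken (lo' := 7 / 5 * σ) (hi' := 143 / 100 * σ) (by positivity) (by linarith)
    (by linarith)
  have hL : 2200 ≤ δ⁻¹ := by rw [le_inv_comm₀ (by norm_num) N.dpos]; linarith
  refine ⟨tb_lev T hs hL hx, fun a ha => ?_, fun s hs => tb_vol hg T (by linarith) hx hs,
    tb_fat hg T hs (by linarith) hx⟩
  have k6 := abs_le.1 (K a (bl_mono (by linarith) ha)).sc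
  have k7 : 0 < Sc g a := (mul_pos_iff_of_pos_left (pow_pos hh 2)).1 (by linarith)
  constructor <;> nlinarith

end Vale.Agent.P216FI
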