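import Vale.Agent.P216U.Cv
import Vale.Agent.P216R.Loc

/-!
# Curvature under smooth convergence of metrics in a chart
-/

open Set Filter Topology
open scoped ContDiff

set_option maxSynthPendingDepth 3

noncomputable section

namespace Vale.Agent.P216FI

open Vale.Agent.P216R Vale.Agent.P219.RG Vale.Agent.P216U

variable {ι E : Type} [NormedAddCommGroup E] [NormedSpace ℝ E] [FiniteDimensional ℝ E]
  {l : Ultrafilter ι} {S : Set E} {G : ι → E → Bil E} {H : E → Bil E}

theorem isOpen_isInvertible : IsOpen {A : Bil E | A.IsInvertible} := by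
  have : CompleteSpace E := FiniteDimensional.complete ℝ E
  exact ContinuousLinearEquiv.isOpen

theorem cv_inverse (hH : IsMetricOn H S) (h : Cv l S G H) :
    Cv l S (fun n y => (G n y).inverse) fun y => (H y).inverse := by
  have : CompleteSpace E := FiniteDimensional.complete ℝ E
  exact h.map (.of_isOpen hH.isOpen) isOpen_isInvertible
    (Φ := fun A : Bil E => A.inverse)
    (fun A hA => (ContinuousLinearMap.IsInvertible.contDiffAt_map_inverse hA).contDiffWithinAt)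
    fun y hy => hH.isInvertible hy

theorem cd_flip {X A B C : Type} [NormedAddCommGroup X] [NormedSpace ℝ X] [NormedAddCommGroup A]
    [NormedSpace ℝ A] [NormedAddCommGroup B] [NormedSpace ℝ B] [NormedAddCommGroup C]
    [NormedSpace ℝ C] {f : X → A →L[ℝ] B →L[ℝ] C} (h : ContDiff ℝ ∞ f) :
    ContDiff ℝ ∞ fun x => (f x).flip :=
  (ContinuousLinearMap.flipₗᵢ ℝ A B C).toContinuousLinearEquiv.contDiff.comp h

theorem cv_chrisB (hH : IsMetricOn H S) (h : Cv l S G H) :
    Cv l S (fun n => chrisB (G n)) (chrisB H) := by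
  refine Cv.map₂ (.of_isOpen hH.isOpen)
    (Φ := fun (A : (E →L[ℝ] ℝ) →L[ℝ] E) (D : E →L[ℝ] Bil E) =>
      (ContinuousLinearMap.compL ℝ E (E →L[ℝ] ℝ) E A) ∘L ((1 / 2 : ℝ) • (D + D.flip -
        (ContinuousLinearMap.flipₗᵢ ℝ E E ℝ).toContinuousLinearEquiv.toContinuousLinearMap ∘L
          D.flip))) ?_ (cv_inverse hH h) (h.fderiv hH.isOpen)
  refine ContDiff.clm_comp ?_ ?_
  · exact (ContinuousLinearMap.compL ℝ E (E →L[ℝ] ℝ) E).contDiff.comp contDiff_fst
  · exact ((contDiff_snd.add (cd_flip contDiff_snd)).sub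
      (contDiff_const.clm_comp (cd_flip contDiff_snd))).const_smul (1 / 2 : ℝ)

theorem cv_curvB (hH : IsMetricOn H S) (h : Cv l S G H) :
    Cv l S (fun n => curvB (G n)) (curvB H) := by
  have hc := cv_chrisB hH h
  refine Cv.map₂ (.of_isOpen hH.isOpen)
    (Φ := fun (D : E →L[ℝ] E →L[ℝ] E →L[ℝ] E) (B : E →L[ℝ] E →L[ℝ] E) =>
      (D + (ContinuousLinearMap.compL ℝ E E E).bilinearComp B B) -
        (D + (ContinuousLinearMap.compL ℝ E E E).bilinearComp B B).flip) ?_
    (hc.fderiv hH.isOpen) hc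
  have h1 : ContDiff ℝ ∞ fun q : (E →L[ℝ] E →L[ℝ] E →L[ℝ] E) × (E →L[ℝ] E →L[ℝ] E) =>
      (ContinuousLinearMap.compL ℝ E E E).bilinearComp q.2 q.2 :=
    cd_flip ((cd_flip (contDiff_const.clm_comp contDiff_snd)).clm_comp contDiff_snd)
  exact (contDiff_fst.add h1).sub (cd_flip (contDiff_fst.add h1))

theorem cv_ricG (hH : IsMetricOn H S) (h : Cv l S G H) :
    Cv l S (fun n => ricG (G n)) (ricG H) :=
  (cv_curvB hH h).map' (.of_isOpen hH.isOpen)
    (Φ := fun R : E →L[ℝ] E →L[ℝ] E →L[ℝ] E =>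
      ContinuousLinearMap.compL ℝ E (E →L[ℝ] E) ℝ (trL E) ∘L
        (ContinuousLinearMap.flipₗᵢ ℝ E E E).toContinuousLinearEquiv.toContinuousLinearMap ∘L
          R.flip)
    (contDiff_const.clm_comp (contDiff_const.clm_comp (cd_flip contDiff_id)))

theorem cv_scG (hH : IsMetricOn H S) (h : Cv l S G H) :
    Cv l S (fun n => scG (G n)) (scG H) :=
  Cv.map₂ (.of_isOpen hH.isOpen)
    (Φ := fun (A : (E →L[ℝ] ℝ) →L[ℝ] E) (B : Bil E) => trL E (A ∘L B))
    ((trL E).contDiff.comp (contDiff_fst.clm_comp contDiff_snd)) (cv_inverse hH h) (cv_ricG hH h)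

omit [FiniteDimensional ℝ E] in
/-- interpolation towards the limit -/
theorem cv_interp {l : Filter ι} (hH : IsMetricOn H S) (h : Cv l S G H) {χ : E → ℝ}
    (hχ : ContDiffOn ℝ ∞ χ S) :
    Cv l S (fun n y => χ y • H y + (1 - χ y) • G n y) H := by
  have hS : Nice S := .of_isOpen hH.isOpen
  have h1 : Cv l S (fun _ y => (χ y, H y)) fun y => (χ y, H y) :=
    Cv.const hS.ud (hχ.prodMk hH.smooth)
  have h2 := Cv.map₂ hS (Φ := fun (a : ℝ × Bil E) (B : Bil E) => a.1 • a.2 + (1 - a.1) • B)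
    (by fun_prop) h1 h
  exact h2.congr (fun _ _ => Eventually.of_forall fun _ => rfl) fun y _ => by
    simp only [← add_smul, add_sub_cancel, one_smul]

/-- a positive form is bounded below -/
theorem exists_coer {A : Bil E} (hA : ∀ v, v ≠ 0 → 0 < A v v) :
    ∃ c > 0, ∀ v, c * ‖v‖ ^ 2 ≤ A v v := by
  rcases subsingleton_or_nontrivial E with hE | hE
  · exact ⟨1, one_pos, fun v => by simp [Subsingleton.elim v 0]⟩
  have : ProperSpace E := FiniteDimensional.proper ℝ E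
  obtain ⟨x, hx, hm⟩ := (isCompact_sphere (0 : E) 1).exists_isMinOn
    (NormedSpace.sphere_nonempty.2 zero_le_one) (f := fun v => A v v) (by fun_prop)
  have hx1 : ‖x‖ = 1 := by simpa using hx
  refine ⟨A x x, hA x (by rintro rfl; simp at hx1), fun v => ?_⟩
  by_cases hv : v = 0
  · simp [hv]
  have hn : 0 < ‖v‖ := norm_pos_iff.2 hv
  have h1 : A x x ≤ A (‖v‖⁻¹ • v) (‖v‖⁻¹ • v) :=
    hm (show ‖v‖⁻¹ • v ∈ Metric.sphere (0 : E) 1 by simp [norm_smul, hn.ne'])
  simp only [map_smul, smul_apply, smul_eq_mul] at h1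
  rw [← le_div_iff₀ (by positivity)]
  refine h1.trans_eq ?_
  field_simp

/-- forms close to a positive form are comparable -/
theorem ev_close {A : Bil E} (hA : ∀ v, v ≠ 0 → 0 < A v v) {ε : ℝ} (hε : 0 < ε) :
    ∀ᶠ q : Bil E × Bil E in 𝓝 (A, A), ∀ v, |q.1 v v - q.2 v v| ≤ ε * q.2 v v := by
  obtain ⟨c, hc, h⟩ := exists_coer hA
  have h1 : ∀ᶠ q : Bil E × Bil E in 𝓝 (A, A), ‖q.1 - q.2‖ < ε * (c / 2) :=
    ContinuousAt.eventually_lt (f := fun q : Bil E × Bil E => ‖q.1 - q.2‖) (by fun_prop)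
      continuousAt_const (by simp; positivity)
  have h2 : ∀ᶠ q : Bil E × Bil E in 𝓝 (A, A), ‖A - q.2‖ < c / 2 :=
    ContinuousAt.eventually_lt (f := fun q : Bil E × Bil E => ‖A - q.2‖) (by fun_prop)
      continuousAt_const (by simp; positivity)
  filter_upwards [h1, h2] with q h1 h2 v
  have k : ∀ B : Bil E, |B v v| ≤ ‖B‖ * ‖v‖ ^ 2 := fun B => by
    have := B.le_opNorm₂ v v
    rw [Real.norm_eq_abs] at this
    linarith
  have k1 := k (q.1 - q.2)
  have k2 := (le_abs_self _).trans (k (A - q.2))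
  simp only [sub_apply] at k1 k2
  have h3 := h v
  have h4 : 0 ≤ ‖v‖ ^ 2 := by positivity
  have h5 : c / 2 * ‖v‖ ^ 2 ≤ q.2 v v := by nlinarith
  calc _ ≤ ε * (c / 2) * ‖v‖ ^ 2 := k1.trans (by gcongr)
    _ ≤ ε * q.2 v v := by rw [mul_assoc]; gcongr

end Vale.Agent.P216FI
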