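import Vale.Agent.P216FI.Box
import Vale.Agent.P216FL.FillTop
import Vale.Agent.P216C.Plan

/-!
# The metric of a Dehn filling, and the volume of cusps
-/

open Set Topology MeasureTheory Real
open Filter hiding comap comap_id
open scoped ContDiff Manifold ENNReal

set_option maxSynthPendingDepth 3

noncomputable section

namespace Vale.Agent.P216FI

open Vale.Agent.P216R Vale.Agent.P219.RG Vale.Agent.P216C
open Vale.Agent.P216FL (sh IsFill Col exists_fill exists_int_mem scr_eq rad_scw sh_0 sh_1 sh_2 scw_2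
  E3_ext contDiff_mk contDiff_co)

/-- `S` is a metric for filling along a slope of length `l`, with volume `c` per unit area -/
structure Tb (l s c R : ℝ) (S : E3 → Bil E3) : Prop where
  R_pos : 0 < R
  c_nonneg : 0 ≤ c
  met : Met S univ
  inv : ∀ a t, comap (scr a t) S = S
  cusp : ∀ p : E3, 0 ≤ p 2 → comap (ka (2 * π / l) R) S p = cusp s p
  sc : ∀ w, -6 ≤ Sc S w
  vol : ∀ v, vol S {w | rad w ≤ R ∧ w 2 ∈ Ico 0 v} ≤ ENNReal.ofReal (l * v * c)

theorem Prof.tb {l s R : ℝ} {u v : ℝ → ℝ} (hl : 0 < l) (h : Prof (2 * π / l) s R u v) :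
    Tb l s (∫ t in (0 : ℝ)..R, 2 * π / l * t * exp (u t + v t)) R (tube u v) := by
  have hα : 0 < 2 * π / l := by positivity
  refine ⟨h.R_pos, intervalIntegral.integral_nonneg h.R_pos.le fun t ht => ?_, h.met,
    comap_scr_tube u v, fun p hp => h.comap_ka hα hp, h.Sc_tube hα, fun w => ?_⟩
  · have := ht.1
    positivity
  refine (h.vol_tube hl measurableSet_Ico).trans_eq ?_
  rw [Real.volume_Ico, sub_zero, ← ENNReal.ofReal_mul hl.le]
  rcases le_total 0 w with hw | hw
  · rw [← ENNReal.ofReal_mul (by positivity)]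
  · have h0 : 0 ≤ ∫ t in (0 : ℝ)..R, 2 * π / l * t * exp (u t + v t) :=
      intervalIntegral.integral_nonneg h.R_pos.le fun t ht => by
        have := ht.1
        positivity
    have h1 : l * w ≤ 0 := mul_nonpos_of_nonneg_of_nonpos hl.le hw
    rw [ENNReal.ofReal_of_nonpos h1, zero_mul,
      ENNReal.ofReal_of_nonpos (mul_nonpos_of_nonpos_of_nonneg h1 h0)]

theorem exists_tb_pos {l : ℝ} (hl : 0 < l) : ∃ c R S, c < 1 / 2 ∧ Tb l 1 c R S := by
  obtain ⟨R, u, v, h, h1⟩ := exists_prof_pos (α := 2 * π / l) (by positivity)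
  exact ⟨_, R, _, h1, h.tb hl⟩

theorem exists_tb_neg {l : ℝ} (hl : 0 < l) : ∃ c R S, c < 12 ∧ Tb l (-1) c R S := by
  obtain ⟨R, u, v, h, h1⟩ := exists_prof_neg (α := 2 * π / l) (by positivity)
  exact ⟨_, R, _, h1, h.tb hl⟩

section Fill

variable {M : Type} [TopologicalSpace M] [ChartedSpace E3 M]
  {M' : Type} [TopologicalSpace M'] [ChartedSpace E3 M'] [IsManifold 𝓘(ℝ, E3) ∞ M'] {J : Type}
  {ψ : J → E3 → M} {l u v b R : J → ℝ} {K : Set M} {U' : Set M'} {i : M → M'}
  {Φ : J → E3 → M'} {g' : Ten E3 M'} {j : J} {s c : ℝ} {S : E3 → Bil E3}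

theorem fill_met (h : IsFill ψ l u v b R K U' i Φ) (hS : Met S univ) (e : comap (Φ j) g' = S) :
    Met g' (range (Φ j)) := by
  rw [← image_univ]
  exact met_of_comap (h.tube j) (e ▸ hS)

theorem fill_sc (h : IsFill ψ l u v b R K U' i Φ) (hS : Tb (l j) s c (R j) S)
    (e : comap (Φ j) g' = S) (z : E3) : -6 ≤ Sc g' (Φ j z) := by
  have := (li_comap (fill_met h hS.met e) (h.tube j) (mem_univ z) (mem_range_self z)).Sc
  rw [← this, e]
  exact hS.sc z

theorem fill_vol [MeasurableSpace M'] [BorelSpace M'] (h : IsFill ψ l u v b R K U' i Φ)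
    (hv : 0 < v j) (hS : Tb (l j) s c (R j) S) (e : comap (Φ j) g' = S) :
    vol g' (Φ j '' {z | rad z ≤ R j}) ≤ ENNReal.ofReal (l j * v j * c) := by
  have hm : MeasurableSet {w : E3 | rad w ≤ R j ∧ w 2 ∈ Ico 0 (v j)} :=
    (isClosed_le continuous_rad continuous_const).measurableSet.inter (meas_co 2 measurableSet_Ico)
  have h1 : Φ j '' {z | rad z ≤ R j} ⊆ Φ j '' {w : E3 | rad w ≤ R j ∧ w 2 ∈ Ico 0 (v j)} := by
    rintro _ ⟨z, hz, rfl⟩
    obtain ⟨n, hn⟩ := exists_int_mem (z 2) hv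
    exact ⟨_, ⟨(rad_scw _ _ z).trans_le hz, hn⟩, h.per_int j n z⟩
  refine (measure_mono h1).trans ((vol_image_le g' (h.tube j)
    (HereditarilyLindelofSpace.isLindelof _) (subset_univ _) hm Subset.rfl).trans ?_)
  rw [e]
  exact hS.vol _

end Fill

/-- the linear map with columns `a`, `b`, `ee 2` -/
def lat (a b : ℝ × ℝ) : E3 →L[ℝ] E3 :=
  (a.1 • dx 0 + b.1 • dx 1).smulRight (ee 0) + (a.2 • dx 0 + b.2 • dx 1).smulRight (ee 1) +
    (dx 2).smulRight (ee 2)

@[simp] theorem lat_0 (a b : ℝ × ℝ) (p : E3) : lat a b p 0 = a.1 * p 0 + b.1 * p 1 := by simp [lat]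
@[simp] theorem lat_1 (a b : ℝ × ℝ) (p : E3) : lat a b p 1 = a.2 * p 0 + b.2 * p 1 := by simp [lat]
@[simp] theorem lat_2 (a b : ℝ × ℝ) (p : E3) : lat a b p 2 = p 2 := by simp [lat]

theorem lat_inj {a b : ℝ × ℝ} (h : 0 < ar a b) : Function.Injective (lat a b) := by
  have hd : a.1 * b.2 - a.2 * b.1 ≠ 0 := abs_pos.1 h
  rw [injective_iff_map_eq_zero]
  intro p hp
  have h0 := lat_0 a b p
  have h1 := lat_1 a b p
  have h2 := lat_2 a b p
  rw [hp] at h0 h1 h2
  simp only [PiLp.zero_apply] at h0 h1 h2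
  refine E3_ext (mul_left_cancel₀ hd ?_) (mul_left_cancel₀ hd ?_) h2.symm
  · simp only [PiLp.zero_apply]; linear_combination -b.2 * h0 + b.1 * h1
  · simp only [PiLp.zero_apply]; linear_combination a.2 * h0 - a.1 * h1

theorem ld_lat {a b : ℝ × ℝ} (h : 0 < ar a b) : LD E3 (lat a b) univ :=
  ld_model isOpen_univ (lat a b).contDiff.contDiffOn fun x _ => by
    rw [(lat a b).fderiv]; exact lat_inj h

theorem lat_sh (a b : ℝ × ℝ) (x y : ℝ) (p : E3) :
    lat a b (sh x y p) = sh (x * a.1 + y * b.1) (x * a.2 + y * b.2) (lat a b p) := by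
  apply E3_ext <;> simp <;> ring

theorem det_lat (s : ℝ) (a b : ℝ × ℝ) (p : E3) :
    (Matrix.of fun i j => comap (lat a b) (cusp s) p (ee i) (ee j)).det =
      (ar a b * exp (2 * s * p 2)) ^ 2 := by
  have e : exp (2 * s * p 2) = exp (2 * (s * p 2)) := by rw [mul_assoc]
  rw [Matrix.det_fin_three, mul_pow, ar, sq_abs, e]
  simp only [Matrix.of_apply, comap_apply, (lat a b).fderiv, cusp, wm_apply, lat_0, lat_1, lat_2]
  simp
  ring

variable {M : Type} [TopologicalSpace M] [ChartedSpace E3 M] [IsManifold 𝓘(ℝ, E3) ∞ M]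
  [MeasurableSpace M] [BorelSpace M] {U : Set M} {g : Ten E3 M} {ψ : E3 → M} {a b : ℝ × ℝ}

/-- the volume of the part of a cusp over a measurable set of heights -/
theorem cusp_vol {J I : Set ℝ} (h : Cusp g U ψ a b J) (hI : MeasurableSet I) (hIJ : I ⊆ J) :
    vol g (ψ '' slab I) = ∫⁻ r in I, ENNReal.ofReal (ar a b * exp (-2 * r)) := by
  have hJ : IsOpen (slab J) := h.ld.isOpen
  have hld : LD E3 (ψ ∘ lat a b) (slab J) :=
    h.ld.comp ((ld_lat h.pos).mono hJ (subset_univ _)) fun p hp => by simpa [slab] using hp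
  have hv : ∀ A B : Set ℝ, MeasurableSet A → MeasurableSet B →
      vol (comap (ψ ∘ lat a b) g) (box A B I) =
        volume A * volume B * ∫⁻ r in I, ENNReal.ofReal (ar a b * exp (-2 * r)) := by
    intro A B hA hB
    refine vol_box hA hB hI (by fun_prop) (fun r _ => mul_nonneg h.pos.le (exp_pos _).le)
      fun p hp => ?_
    have hp' : lat a b p ∈ slab J := by simpa [slab] using hIJ hp.2.2
    rw [← comap_comp g (h.ld.md hp') ((ld_lat h.pos).md (mem_univ p)),
      comap_congr_right _ (h.met _ hp'), det_lat]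
    norm_num
  refine le_antisymm ?_ ?_
  · have h1 : ψ '' slab I ⊆ (ψ ∘ lat a b) '' box (Ico 0 1) (Ico 0 1) I := by
      rintro _ ⟨p, hp, rfl⟩
      obtain ⟨q, rfl⟩ := surj_of_inj (lat_inj h.pos) p
      obtain ⟨m, hm⟩ := exists_int_mem (q 0) one_pos
      obtain ⟨n, hn⟩ := exists_int_mem (q 1) one_pos
      refine ⟨sh m n q, ⟨by simpa using hm, by simpa using hn, by simpa [slab] using hp⟩, ?_⟩
      rw [Function.comp_apply, lat_sh]
      exact ((h.eq_iff _ (hIJ hp) (sh _ _ (lat a b q)) (hIJ hp)).2 ⟨m, n, rfl⟩).symm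
    refine (measure_mono h1).trans ((vol_image_le g hld (HereditarilyLindelofSpace.isLindelof _)
      (fun p hp => hIJ hp.2.2) (meas_box measurableSet_Ico measurableSet_Ico hI)
      Subset.rfl).trans_eq ?_)
    rw [hv _ _ measurableSet_Ico measurableSet_Ico]
    simp
  · have ho : IsOpen (box (Ioo 0 1) (Ioo 0 1) univ ∩ slab J) :=
      (isOpen_box isOpen_Ioo isOpen_Ioo isOpen_univ).inter hJ
    have hi : InjOn (ψ ∘ lat a b) (box (Ioo 0 1) (Ioo 0 1) univ ∩ slab J) := by
      intro p hp q hq e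
      obtain ⟨m, n, e1⟩ := (h.eq_iff (lat a b p) (by simpa [slab] using hp.2) (lat a b q)
        (by simpa [slab] using hq.2)).1 e
      rw [← lat_sh] at e1
      have e2 := lat_inj h.pos e1
      have k : ∀ (x y : ℝ) (k : ℤ), x ∈ Ioo (0 : ℝ) 1 → y ∈ Ioo (0 : ℝ) 1 → y = x + k → y = x := by
        intro x y k hx hy e
        have h1 : (k : ℝ) < 1 := by linarith [hx.1, hy.2]
        have h2 : (-1 : ℝ) < k := by linarith [hx.2, hy.1]
        have h3 : k = 0 := by
          have h1' : k < 1 := by exact_mod_cast h1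
          have h2' : -1 < k := by exact_mod_cast h2
          omega
        simpa [h3] using e
      exact (E3_ext (k _ _ m hp.1.1 hq.1.1 (by rw [e2]; rfl))
        (k _ _ n hp.1.2.1 hq.1.2.1 (by rw [e2]; rfl)) (by rw [e2]; rfl)).symm
    have h1 := vol_image g (hld.mono ho inter_subset_right) hi
      (HereditarilyLindelofSpace.isLindelof (box (Ioo 0 1) (Ioo 0 1) I))
      (fun p hp => ⟨⟨hp.1, hp.2.1, trivial⟩, hIJ hp.2.2⟩)
      (meas_box measurableSet_Ioo measurableSet_Ioo hI) Subset.rfl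
    rw [hv _ _ measurableSet_Ioo measurableSet_Ioo] at h1
    simp only [Real.volume_Ioo, sub_zero, ENNReal.ofReal_one, one_mul] at h1
    rw [← h1]
    refine measure_mono ?_
    rintro _ ⟨p, hp, rfl⟩
    exact ⟨lat a b p, by simpa [slab] using hp.2.2, rfl⟩

theorem cvol : CVOL := by
  intro M _ _ _ _ _ U g ψ a b s t hst h
  rw [cusp_vol h measurableSet_Ioo Subset.rfl, Measure.restrict_congr_set Ioo_ae_eq_Ioc,
    lintegral_Ioc (by fun_prop) hst fun r _ => mul_nonneg h.pos.le (exp_pos _).le,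
    intervalIntegral.integral_const_mul,
    intervalIntegral.integral_eq_sub_of_hasDerivAt (f := fun r => -exp (-2 * r) / 2)
      (fun r _ => (((((hasDerivAt_id r).const_mul (-2)).exp).neg).div_const 2).congr_deriv
        (by simp only [id]; ring)) (by apply Continuous.intervalIntegrable; fun_prop)]
  congr 1
  ring

/-- a single torus has volume zero -/
theorem cusp_vol_level {J : Set ℝ} (h : Cusp g U ψ a b J) {r : ℝ} (hr : r ∈ J) :
    vol g (ψ '' slab {r}) = 0 := by
  rw [cusp_vol h (measurableSet_singleton r) (singleton_subset_iff.2 hr)]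
  simp

end Vale.Agent.P216FI
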