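import Vale.Agent.P216FI.Vol2
import Vale.Agent.P216FI.Tube
import Vale.Agent.P216R.Nat

/-!
# Volumes of boxes, scalar curvature and volume of the filling tube
-/

open Set Topology MeasureTheory Real
open Filter hiding comap comap_id
open scoped ContDiff Manifold ENNReal

set_option maxSynthPendingDepth 3

noncomputable section

namespace Vale.Agent.P216FI

open Vale.Agent.P216R Vale.Agent.P219.RG

/-- a box -/
def box (A B C : Set ℝ) : Set E3 := {p | p 0 ∈ A ∧ p 1 ∈ B ∧ p 2 ∈ C}

theorem meas_co (i : Fin 3) : Measurable fun p : E3 => p i := (dx i).continuous.measurable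

theorem meas_box {A B C : Set ℝ} (hA : MeasurableSet A) (hB : MeasurableSet B)
    (hC : MeasurableSet C) : MeasurableSet (box A B C) :=
  (meas_co 0 hA).inter ((meas_co 1 hB).inter (meas_co 2 hC))

theorem isOpen_box {A B C : Set ℝ} (hA : IsOpen A) (hB : IsOpen B) (hC : IsOpen C) :
    IsOpen (box A B C) :=
  (hA.preimage (dx 0).continuous).inter
    ((hB.preimage (dx 1).continuous).inter (hC.preimage (dx 2).continuous))

theorem mp_E3 : MeasurePreserving (fun p : E3 => (p 2, (p 0, p 1))) volume volume :=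
  (((MeasurePreserving.id volume).prod (volume_preserving_finTwoArrow ℝ)).comp
    (volume_preserving_piFinSuccAbove (fun _ : Fin 3 => ℝ) 2)).comp
      (PiLp.volume_preserving_ofLp (Fin 3))

theorem lintegral_box {A B C : Set ℝ} (hA : MeasurableSet A) (hB : MeasurableSet B)
    (hC : MeasurableSet C) {φ : ℝ → ℝ≥0∞} (hφ : Measurable φ) :
    ∫⁻ p in box A B C, φ (p 2) = volume A * volume B * ∫⁻ r in C, φ r := by
  have h := mp_E3.setLIntegral_comp_preimage (hC.prod (hA.prod hB))
    (f := fun q : ℝ × ℝ × ℝ => φ q.1 * 1) (by fun_prop)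
  have e : (fun p : E3 => (p 2, (p 0, p 1))) ⁻¹' (C ×ˢ A ×ˢ B) = box A B C := by
    ext p; simp [box, and_comm, and_assoc]
  rw [e, Measure.volume_eq_prod, ← Measure.prod_restrict,
    lintegral_prod_mul (f := φ) (g := fun _ => 1) hφ.aemeasurable aemeasurable_const] at h
  simp only [mul_one, lintegral_const, MeasurableSet.univ, Measure.restrict_apply, univ_inter,
    one_mul] at h
  rw [h, Measure.volume_eq_prod, Measure.prod_prod, mul_comm]

/-- the volume of a box for a metric whose density depends on the height only -/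
theorem vol_box {G : E3 → Bil E3} {A B C : Set ℝ} (hA : MeasurableSet A) (hB : MeasurableSet B)
    (hC : MeasurableSet C) {φ : ℝ → ℝ} (hφ : Measurable φ) (h0 : ∀ r ∈ C, 0 ≤ φ r)
    (h : ∀ p ∈ box A B C, (Matrix.of fun i j => G p (ee i) (ee j)).det = φ (p 2) ^ 2) :
    vol G (box A B C) = volume A * volume B * ∫⁻ r in C, ENNReal.ofReal (φ r) := by
  rw [vol_euc, withDensity_apply _ (meas_box hA hB hC),
    ← lintegral_box hA hB hC hφ.ennreal_ofReal]
  refine setLIntegral_congr_fun (meas_box hA hB hC) fun p hp => ?_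
  simp only [h p hp, sqrt_sq (h0 _ hp.2.2)]

theorem det_wm (a b : ℝ → ℝ) (p : E3) :
    (Matrix.of fun i j => wm a b p (ee i) (ee j)).det = exp (a (p 2) + b (p 2)) ^ 2 := by
  rw [Matrix.det_fin_three]
  simp [wm_apply, ← exp_add, sq]
  ring

theorem lintegral_Ioc {f : ℝ → ℝ} (hf : Continuous f) {a b : ℝ} (hab : a ≤ b)
    (h0 : ∀ r ∈ Ioc a b, 0 ≤ f r) :
    ∫⁻ r in Ioc a b, ENNReal.ofReal (f r) = ENNReal.ofReal (∫ r in a..b, f r) := by
  rw [intervalIntegral.integral_of_le hab, ofReal_integral_eq_lintegral_ofReal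
    (hf.integrableOn_Icc.mono_set Ioc_subset_Icc_self)
    ((ae_restrict_mem measurableSet_Ioc).mono h0)]

theorem scG_const (A : Bil E3) (p : E3) : scG (fun _ => A) p = 0 := by
  have h : chrisB (fun _ : E3 => A) = fun _ => 0 := by
    funext u; simp [chrisB]
  simp [scG, ricG, curvB, h, trB]

variable {α s R : ℝ} {u v : ℝ → ℝ}

/-- the scalar curvature of the tube is at least `-6` -/
theorem Prof.scG_tube (h : Prof α s R u v) (hα : 0 < α) (w : E3) : -6 ≤ scG (tube u v) w := by
  rcases eq_or_lt_of_le (rad_nonneg w) with h0 | h0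
  · obtain ⟨d, hd, hf⟩ := h.flat
    have : tube u v =ᶠ[𝓝 w] fun _ => dxx 0 0 + dxx 1 1 + exp (2 * v 0) • dxx 2 2 := by
      have h1 : ∀ᶠ z in 𝓝 w, rad z < d :=
        continuous_rad.continuousAt.eventually (Iio_mem_nhds (by rw [← h0]; exact hd))
      filter_upwards [h1] with z hz
      simp [tube, (hf _ hz.le).1, (hf _ hz.le).2]
    rw [scG_congr this, scG_const]; norm_num
  · obtain ⟨p, rfl, h1, -⟩ := exists_ka hα.ne' R w
    have hp : p ∈ slab (Ioi (-R)) := show -R < p 2 by linarith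
    have : Iso (wm (wa α R u) (wb R v)) (tube u v) (ka α R) p :=
      ⟨⟨_, _, wm_isMetricOn isOpen_Ioi (contDiffOn_wa hα h.su) (contDiffOn_wb h.sv), h.isMetricOn,
        hp, mem_univ _⟩, Eventually.of_forall fun _ => (contDiff_ka α R).contDiffAt, by
        filter_upwards [(isOpen_slab isOpen_Ioi).mem_nhds hp] with q hq
        exact (comap_ka_tube hα u v hq).symm⟩
    rw [← this.scG]
    exact h.scG_wm hα hp

theorem Prof.met (h : Prof α s R u v) : Met (tube u v) univ := met_model.2 h.isMetricOn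

theorem Prof.Sc_tube (h : Prof α s R u v) (hα : 0 < α) (w : E3) : -6 ≤ Sc (tube u v) w := by
  rw [Sc_model]; exact h.scG_tube hα w

theorem vol_axis (G : E3 → Bil E3) : vol G {w | rad w = 0} = 0 := by
  rw [vol_euc]
  refine withDensity_absolutelyContinuous _ _ (measure_mono_null
    (t := (LinearMap.ker (dx 0 : E3 →ₗ[ℝ] ℝ) : Set E3)) (fun w hw => ?_)
    (Measure.addHaar_submodule _ _ fun h => ?_))
  · have h1 := rad_sq w
    rw [show rad w = 0 from hw] at h1
    have : w 0 ^ 2 = 0 := by nlinarith [sq_nonneg (w 0), sq_nonneg (w 1)]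
    simpa using this
  · have : ee 0 ∈ LinearMap.ker (dx 0 : E3 →ₗ[ℝ] ℝ) := h ▸ Submodule.mem_top
    simp at this

theorem ka_cover {l : ℝ} (hl : 0 < l) (R : ℝ) {w : E3} (h0 : rad w ≠ 0) (h1 : rad w ≤ R)
    {B : Set ℝ} (h2 : w 2 ∈ B) : w ∈ ka (2 * π / l) R '' box (Ico 0 l) B (Ioc (-R) 0) := by
  have hα : 2 * π / l ≠ 0 := by positivity
  obtain ⟨p, rfl, e1, e2⟩ := exists_ka hα R w
  have hm := sub_toIcoDiv_zsmul_mem_Ico hl 0 (p 0)
  set m := toIcoDiv hl 0 (p 0)
  rw [zsmul_eq_mul, zero_add] at hm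
  have h3 := lt_of_le_of_ne (rad_nonneg _) h0.symm
  refine ⟨p + (-(m * l)) • ee 0 + (0 : ℝ) • ee 1, ⟨by simpa [sub_eq_add_neg] using hm,
    by simpa using h2, by simp; constructor <;> linarith⟩, ?_⟩
  have e : 2 * π / l * -(m * l) = ((-m : ℤ) : ℝ) * (2 * π) := by push_cast; field_simp
  rw [ka_add, e]
  have c1 := cos_int_mul_two_pi (-m)
  have s1 : sin (((-m : ℤ) : ℝ) * (2 * π)) = 0 := by
    simpa using sin_add_int_mul_two_pi 0 (-m)
  generalize ((-m : ℤ) : ℝ) * (2 * π) = θ at c1 s1
  refine PiLp.ext fun i => ?_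
  fin_cases i <;> simp [c1, s1]

/-- the volume of the part of the tube over a set of heights -/
theorem Prof.vol_tube {l : ℝ} (hl : 0 < l) (h : Prof (2 * π / l) s R u v) {B : Set ℝ}
    (hB : MeasurableSet B) : vol (tube u v) {w | rad w ≤ R ∧ w 2 ∈ B} ≤
      ENNReal.ofReal l * volume B *
        ENNReal.ofReal (∫ t in (0 : ℝ)..R, 2 * π / l * t * exp (u t + v t)) := by
  set α := 2 * π / l with hα'
  have hα : 0 < α := by positivity
  have hb := meas_box (measurableSet_Ico (a := 0) (b := l)) hB (measurableSet_Ioc (a := -R) (b := 0))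
  have hs : box (Ico 0 l) B (Ioc (-R) 0) ⊆ slab (Ioi (-R)) := fun p hp => hp.2.2.1
  have h1 : {w | rad w ≤ R ∧ w 2 ∈ B} ⊆ {w | rad w = 0} ∪ ka α R '' box (Ico 0 l) B (Ioc (-R) 0) :=
    fun w hw => (em (rad w = 0)).imp id fun h0 => ka_cover hl R h0 hw.1 hw.2
  refine (measure_mono h1).trans ((measure_union_le _ _).trans ?_)
  rw [vol_axis, zero_add]
  refine (vol_image_le _ (ld_ka hα.ne' R) (HereditarilyLindelofSpace.isLindelof _) hs hb
    Subset.rfl).trans_eq ?_
  have hc : Continuous fun t => α * t * exp (u t + v t) := by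
    have := h.su.continuous; have := h.sv.continuous
    fun_prop
  have hc' : Continuous fun r => α * (r + R) * exp (u (r + R) + v (r + R)) :=
    hc.comp (continuous_id.add continuous_const)
  have h0 : ∀ r ∈ Ioc (-R) 0, 0 ≤ α * (r + R) * exp (u (r + R) + v (r + R)) := fun r hr => by
    have : 0 < r + R := by linarith [hr.1]
    positivity
  rw [vol_box measurableSet_Ico hB measurableSet_Ioc hc'.measurable h0,
    lintegral_Ioc hc' (by linarith [h.R_pos]) h0, Real.volume_Ico, sub_zero,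
    intervalIntegral.integral_comp_add_right (fun t => α * t * exp (u t + v t)) R,
    neg_add_cancel, zero_add]
  intro p hp
  have : 0 < p 2 + R := by linarith [hp.2.2.1]
  rw [comap_ka_tube hα u v (hs hp), det_wm, wa, wb, add_assoc, exp_add, exp_log (by positivity)]

end Vale.Agent.P216FI
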