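import Vale.Agent.P216SG.Nkp
import Vale.Agent.P216SG.NoCap
import Vale.Agent.P216U.Stab
import Vale.Agent.P216CP.HR

/-!
# P216FI: the cutoff lemma
-/

open scoped Manifold ContDiff Topology ENNReal
open Set MeasureTheory Filter

set_option maxSynthPendingDepth 3

noncomputable section

namespace Vale.Agent.P216FI

open Vale.Agent.P216R Vale.Agent.P216DC Vale.Agent.P216SG Vale.Agent.P216BF Vale.Agent.P216FA
open Vale.Agent.P216U Vale.Agent.P216CP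

section static

variable {M : Type} [TopologicalSpace M] [ChartedSpace E3 M] {g : Ten E3 M} {U : Set M}
  {γ : ℝ → M} {L k A : ℝ}

/-- minimising geodesics of a rescaled metric -/
theorem minGeo_smul (h : MinGeo g U γ L) (hk : 0 < k) :
    MinGeo (k⁻¹ ^ 2 • g) U (fun t => γ (k * t + 0)) (L / k) := by
  obtain ⟨ε, hε, h1⟩ := minGeo_isGeo h
  have hL := h.nonneg
  have e : k * (L / k) = L := mul_div_cancel₀ _ hk.ne'
  have hm : ∀ t ∈ Icc 0 (L / k), k * t + 0 ∈ Icc 0 L := fun t ht =>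
    ⟨by nlinarith [ht.1], by nlinarith [ht.2]⟩
  have h2 : IsGeo g U (fun t => γ (k * t + 0)) (Ioo (-(ε / k)) (L / k + ε / k)) := by
    refine (h1.comp_affine k 0).mono fun t ht => ?_
    have e' : k * (ε / k) = ε := mul_div_cancel₀ _ hk.ne'
    exact ⟨by nlinarith [ht.1], by nlinarith [ht.2]⟩
  have hε' : 0 < ε / k := by positivity
  refine ⟨by positivity, ⟨ε / k, hε', (P216R.geo_smul _ (by positivity)).2 h2.toGeo, h2.mem⟩,
    fun t ht => ?_, fun a ha b hb => ?_⟩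
  · rw [spd, h2.vel_eq isOpen_Ioo ⟨by linarith [ht.1], by linarith [ht.2]⟩, dv_affine,
      ← minGeo_vel h (hm t ht), Real.sqrt_eq_one]
    have := minGeo_sp h (hm t ht)
    simp only [Pi.smul_apply, map_smul, smul_apply, smul_eq_mul, this]
    field_simp
  · rw [ed_smul (inv_pos.2 hk), h.min _ (hm a ha) _ (hm b hb), ← ENNReal.ofReal_mul (by positivity),
      add_sub_add_right_eq_sub, ← mul_sub, abs_mul, abs_of_pos hk, inv_mul_cancel_left₀ hk.ne']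

/-- the middle point of a segment lies on an exact almost line -/
theorem al_mid (h : MinGeo g U γ (2 * A)) : AL g U (γ A) A 0 := by
  have A0 : 0 ≤ A := by linarith [h.nonneg]
  have m : A ∈ Icc 0 (2 * A) := ⟨A0, by linarith⟩
  refine al_of_exact (p := γ 0) (q := γ (2 * A)) A0 ?_ ?_ ?_
  · rw [h.min _ m _ ⟨le_rfl, h.nonneg⟩, sub_zero, abs_of_nonneg A0]
  · rw [h.min _ m _ ⟨h.nonneg, le_rfl⟩, abs_sub_comm, abs_of_nonneg (by linarith)]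
    congr 1; ring
  · rw [dd_eq_of (minGeo_ed h) h.nonneg, add_zero]

variable [IsManifold 𝓘(ℝ, E3) ∞ M]

theorem sc_ivt (hg : Met g U) (h : MinGeo g U γ L) {u v : ℝ} (hu : u ∈ Icc 0 L)
    (h1 : Sc g (γ 0) ≤ v) (h2 : v ≤ Sc g (γ u)) : ∃ s ∈ Icc 0 u, Sc g (γ s) = v := by
  obtain ⟨ε, hε, k⟩ := minGeo_isGeo h
  have s : Icc 0 u ⊆ Ioo (-ε) (L + ε) := fun t ht =>
    ⟨by linarith [ht.1], by linarith [ht.2, hu.2]⟩
  exact intermediate_value_Icc hu.1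
    (hg.continuousOn_Sc.comp (k.cont.mono s) fun t ht => k.mem t (s ht)) ⟨h1, h2⟩

end static

/-- the normalised data of the cutoff lemma -/
structure ND {X : Mf} (P : Cs) (Λ : ℝ) (F : Dat X.M) (γ : ℝ → X.M) (ℓ u : ℝ) : Prop where
  ctl : F.Ctl { P with L := 1 / Λ } Λ
  t0 : F.t = 0
  h1 : F.h = 1
  dl : F.δ * P.c 0 ≤ 1 / 8
  geo : MinGeo (F.g 0) F.U γ ℓ
  mem : u ∈ Icc 0 ℓ
  cen : γ u = F.x
  one : Sc (F.g 0) F.x = 1
  lo : Λ * Sc (F.g 0) (γ 0) ≤ 1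
  hi : Λ ≤ Sc (F.g 0) (γ ℓ)

section one

variable {X : Mf} {F : Dat X.M} {P : Cs} {γ : ℝ → X.M} {Λ ℓ u A L R e δ : ℝ}

theorem exists_nd (S : SCALE) (hΛ : 1 ≤ Λ) (hb : F.Bas P.c) (hδ : F.δ * P.c 0 ≤ 1 / 8)
    (hD : ∀ W s y, F.D W s y = 0) (he : F.Env P.κ P.CD (Λ * F.h) (Λ * F.h ^ 2) (Λ * F.h ^ 2))
    (hc : F.CNR P.ε P.C P.A P.w (Λ * F.h) (Λ * F.h ^ 2) (1 / (Λ * F.h ^ 2)))
    (hγ : MinGeo (F.g F.t) F.U γ ℓ) (h1 : Λ * F.h ^ 2 * Sc (F.g F.t) (γ 0) ≤ 1)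
    (h2 : Λ ≤ F.h ^ 2 * Sc (F.g F.t) (γ ℓ))
    (hn : ∀ φ, SNeck F.g F.U φ F.t F.h δ → ∀ u ∈ Icc 0 ℓ, γ u ∉ φ '' Metric.sphere 0 1) :
    ∃ (G : Dat X.M) (γ' : ℝ → X.M) (ℓ' u : ℝ), ND P Λ G γ' ℓ' u ∧
      ∀ φ, SNeck G.g G.U φ 0 1 δ → G.x ∉ φ '' Metric.sphere 0 1 := by
  have h0 := hb.hpos
  have hQ : 0 < F.h⁻¹ ^ 2 := by positivity
  have e1 : √(F.h⁻¹ ^ 2) = F.h⁻¹ := Real.sqrt_sq (by positivity)
  have e2 : F.h ^ 2 * F.h⁻¹ ^ 2 = 1 := by field_simp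
  have h3 : 0 < F.h ^ 2 := by positivity
  obtain ⟨u, hu, e⟩ := sc_ivt (hb.sf.met hb.sl) hγ (v := F.h⁻¹ ^ 2) ⟨hγ.nonneg, le_rfl⟩
    (le_of_mul_le_mul_left (a := Λ * F.h ^ 2) (by nlinarith) (by positivity))
    (le_of_mul_le_mul_left (a := F.h ^ 2) (by linarith) h3)
  have hm := minGeo_mem hγ hu
  have hr : F.Reg 0 0 F.U F.t (γ u) :=
    ⟨.inl ⟨rfl, rfl⟩, (sub_zero _).le, hm, by rw [hD, hD, add_zero]⟩
  have e3 : Λ / √(F.h⁻¹ ^ 2) = Λ * F.h := by rw [e1, div_inv_eq_mul]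
  have e4 : Λ / F.h⁻¹ ^ 2 = Λ * F.h ^ 2 := by rw [inv_pow, div_inv_eq_mul]
  have e5 : ((F.at F.U F.t (γ u)).rs (F.h⁻¹ ^ 2)).g 0 = F.h⁻¹ ^ 2 • F.g F.t := resc_zero _ _ _
  have e6 : √(F.h⁻¹ ^ 2) * F.h = 1 := by rw [e1, inv_mul_cancel₀ h0.ne']
  have e7 : F.h * (u / F.h) + 0 = u := by field_simp; ring
  have e8 : F.h * (ℓ / F.h) + 0 = ℓ := by field_simp; ring
  refine ⟨(F.at F.U F.t (γ u)).rs (F.h⁻¹ ^ 2), fun t => γ (F.h * t + 0), ℓ / F.h, u / F.h,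
    ⟨ctlQ_rs S hQ ⟨S.atBas X F _ _ _ _ hb hb.sl hm, ?_, fun W s y k1 k2 => ?_⟩, rfl, e6, hδ,
      e5 ▸ minGeo_smul hγ h0, ⟨div_nonneg hu.1 h0.le, by gcongr; exact hu.2⟩, congrArg γ e7, ?_, ?_,
      ?_⟩, fun φ k => hn φ (S.rsNeck X _ _ _ _ _ _ _ hQ (e6.symm ▸ k)) u hu⟩
  · rw [e3, e4]
    simpa only [sub_zero] using S.atEnv X F _ _ _ _ _ 0 0 _ _ _ he le_rfl le_rfl hr
  · rw [e3, e4] at k1
    refine hc W s y (by simpa only [zero_add] using S.atReg X F _ _ _ _ _ _ _ _ _ _ hr k1) ?_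
    refine le_of_eq_of_le ?_ k2
    change _ = 1 / Λ * _
    field_simp
  · rw [e5, sc_sc hQ]
    exact (div_eq_one_iff_eq hQ.ne').2 e
  · rw [e5, sc_sc hQ, mul_zero, add_zero, inv_pow, div_inv_eq_mul]
    linarith
  · rw [e5, sc_sc hQ, e8, inv_pow, div_inv_eq_mul]
    linarith

theorem ND.ctl' (S : SCALE) (h : ND P Λ F γ ℓ u) (hA : 0 < A) (h1 : A ≤ Λ) (h2 : 1 / Λ ≤ L) :
    F.Ctl { P with L := L } A :=
  S.ctlMono X F _ _ _ ⟨h.ctl.bas, h.ctl.env, fun W s y k k' => h.ctl.cn W s y k (h2.trans k')⟩ hA h1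

theorem ND.met (h : ND P Λ F γ ℓ u) : Met (F.g 0) F.U := h.t0 ▸ h.ctl.bas.sf.met h.ctl.bas.sl

theorem ND.base (h : ND P Λ F γ ℓ u) (hA : 0 ≤ A) : F.Reg A A F.U 0 F.x :=
  ⟨.inl ⟨h.t0.symm, rfl⟩, by linarith [h.t0], h.ctl.bas.mem, by rw [h.t0]; linarith⟩

/-- the initial point of the segment is far away -/
theorem ND.low (h : ND P Λ F γ ℓ u) (hP : P.Ok e) (hR : 0 < R) (hΛ : (R + P.C + 1) ^ 2 ≤ Λ) :
    R ≤ u := by
  by_contra! k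
  have c1 := hP.C1
  have a1 := hP.A1
  generalize hm : R + P.C + 1 = m at hΛ
  have m1 : 1 ≤ m := by linarith
  have Λ0 : 0 < Λ := by nlinarith
  have l1 : 1 / Λ ≤ m⁻¹ ^ 2 := by rw [inv_pow, one_div]; gcongr
  have e2 : m ^ 2 * m⁻¹ ^ 2 = 1 := by field_simp
  have e3 : 0 < m⁻¹ ^ 2 := by positivity
  obtain ⟨v, hv, e⟩ := sc_ivt h.met h.geo (v := m⁻¹ ^ 2) h.mem
    (((le_div_iff₀' Λ0).2 h.lo).trans l1) (by rw [h.cen, h.one]; nlinarith)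
  have hv' : v ∈ Icc 0 ℓ := ⟨hv.1, hv.2.trans h.mem.2⟩
  have hd : |v - u| ≤ R := abs_le.2 ⟨by linarith [hv.1], by linarith [hv.2]⟩
  have hr : F.Reg Λ Λ F.U 0 (γ v) := by
    refine ⟨.inl ⟨h.t0.symm, rfl⟩, by linarith [h.t0], minGeo_mem h.geo hv', ?_⟩
    have := h.ctl.env.d1 _ _ _ (h.base Λ0.le) _ (minGeo_mem h.geo hv')
    rw [← h.cen, minGeo_dd h.geo h.mem hv', abs_sub_comm, h.cen] at this
    rw [h.t0]
    nlinarith
  have := ((h.ctl.cn _ _ _ hr (l1.trans e.ge)).dt.two F.x ?_).2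
  · rw [h.one, e] at this
    change 1 ≤ P.C * _ at this
    nlinarith
  · rw [← h.cen, sg, e, Real.sqrt_sq (by positivity), inv_inv]
    exact (h.geo.min _ hv' _ h.mem).trans_lt
      ((ENNReal.ofReal_lt_ofReal_iff (by change 0 < P.A * m; positivity)).2
        (by change _ < P.A * m; nlinarith))

theorem ND.high (h : ND P Λ F γ ℓ u) (hR : 0 < R)
    (H : ∀ z ∈ bl (F.g 0) F.U F.x R, Sc (F.g 0) z < Λ) : u + R ≤ ℓ := by
  by_contra! k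
  refine (H (γ ℓ) ?_).not_ge h.hi
  rw [← h.cen]
  exact (h.geo.min _ h.mem _ ⟨h.geo.nonneg, le_rfl⟩).trans_lt ((ENNReal.ofReal_lt_ofReal_iff hR).2
    (abs_lt.2 ⟨by linarith, by linarith [h.mem.2]⟩))

theorem ND.seg (h : ND P Λ F γ ℓ u) (hR : 0 < R) (h1 : R ≤ u) (h2 : u + R ≤ ℓ) :
    ∃ γ', MinGeo (F.g 0) F.U γ' (2 * R) ∧ γ' R = F.x := by
  refine ⟨fun t => γ (t + (u - R)), ?_, by simpa only [add_sub_cancel] using h.cen⟩
  have := (minGeo_shift h.geo (a := u - R) (b := u + R) (by linarith) (by linarith) h2).1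
  rwa [show u + R - (u - R) = 2 * R by ring] at this

end one

/-- a kappa solution that contains a line gives strong necks -/
theorem kout_neck (S : SCALE) (hT : TR) (hK : KCN) {ι : Type} {l : Ultrafilter ι} {X : ι → Mf}
    {F : ∀ n, Dat (X n).M} {P : Cs} {δ : ℝ} (hb : BU P l F) (κ0 : 0 < P.κ)
    (hg : ∀ A > 0, ∀ᶠ n in l, ∃ γ, MinGeo ((F n).g 0) (F n).U γ (2 * A) ∧ γ A = (F n).x)
    (h : KOut P.κ l F) (hδ : 0 < δ) :
    ∀ᶠ n in l, ∃ φ, SNeck (F n).g (F n).U φ 0 1 δ ∧ (F n).x ∈ φ '' Metric.sphere 0 1 := by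
  obtain ⟨L, G, fl, ks, K, eb⟩ := h
  have e : G 0 = L.h := funext fun p => fl.zero (mem_univ p)
  have hc : ∀ n, Clo ((F n).g 0) (F n).U := fun n =>
    (hb.all n).2.1 ▸ S.clo _ _ _ _ _ (hb.all n).1 (hb.all n).1.sl
  have hH : ∀ᶠ n in l, Hs (F n).U := .of_forall fun n => (hc n).hs
  have ε0 : 0 < min δ (1 / 25) := lt_min hδ (by norm_num)
  have ε1 := min_le_left δ (1 / 25)
  have ε2 := min_le_right δ (1 / 25)
  generalize min δ (1 / 25) = ε at ε0 ε1 ε2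
  obtain ⟨A₁, hA⟩ := hK _ κ0 _ ε0 1 one_pos
  obtain ⟨C, -, hA⟩ := hA (max A₁ 1) (le_max_left _ _)
  have A0 : 0 < max A₁ 1 := lt_max_of_lt_right one_pos
  obtain ⟨φ, k1, x, hx, k2⟩ := (hA ⟨L.X⟩ G univ L.o ks
    ((hT ι l X _ _ _ L fun n => ⟨hc n, (hb.all n).1.mem, (hb.all n).2.2⟩).2.2.2
      fun n => (hb.all n).1.ori _ _ (hb.all n).1.sl) trivial (e ▸ tendsto_nhds_unique
      (L.conv.sc_ap (.of_forall fun n => (hc n).met) trivial L.ap)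
      (tendsto_const_nhds.congr fun n => (hb.all n).2.2.symm))).2.neck
    (e ▸ L.conv.al_lim hH L.cb trivial L.ap tendsto_const_nhds A0 le_top two_pos
      ((hg _ A0).mono fun n ⟨γ, k, k'⟩ => k' ▸ al_mid k))
  rw [e] at k1
  have i0 := inv_pos.2 ε0
  have x1 : x ∈ Metric.sphere 0 (Real.exp 0) := by rwa [Real.exp_zero]
  filter_upwards [L.conv.neck_ev k1 (half_lt_self ε0), L.base,
    eb (1 / 2) (by norm_num) (3 / 2 * (ε⁻¹ + 4)) (by positivity)] with n n1 n2 n3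
  have n4 : (L.F n ∘ φ) x = (F n).x := (congrArg (L.F n) k2).trans n2
  have n5 := n1.mono ε1
  refine ⟨_, ⟨n5, n3.1.mono (by norm_num) (n5.emb.isOpen_image isOpen_ann Subset.rfl) ?_⟩, x, hx, n4⟩
  rintro _ ⟨y, hy, rfl⟩
  have y1 : y ∈ lan (-ε⁻¹) ε⁻¹ :=
    lan_mono (neg_le_neg (inv_anti₀ ε0 ε1)) (inv_anti₀ ε0 ε1) (anl_eq ▸ hy)
  have := (n1.tb ε2).ed_le (sphere_sub_lan (by linarith) i0 x1) y1
  rw [n4, lv_of_mem x1, zero_sub, abs_neg] at this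
  refine this.trans_lt ((ENNReal.ofReal_lt_ofReal_iff (by positivity)).2 ?_)
  have := abs_lt.2 (mem_lan.1 y1).2
  linarith [Real.pi_lt_four]

theorem cutl_of (S : SCALE) (hC : CORE) (hB : BCA) (hN : NOCAP) (hT : TR) (hK : KCN) : CUTL :=
  fun c => by
  obtain ⟨e₁, he₁, H1⟩ := hC c
  obtain ⟨e₂, he₂, H2⟩ := hB c
  obtain ⟨e₃, he₃, H3⟩ := hN c
  refine ⟨min e₁ (min e₂ e₃), by positivity, fun P hc hP δ hδ => ?_⟩
  subst hc
  by_contra! hcon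
  have key : ∀ n : ℕ, ∃ (X : Mf) (G : Dat X.M) (γ : ℝ → X.M) (ℓ u : ℝ), ND P (n + 1) G γ ℓ u ∧
      ∀ φ, SNeck G.g G.U φ 0 1 δ → G.x ∉ φ '' Metric.sphere 0 1 := fun n => by
    obtain ⟨X, F, γ, ℓ, k1, k2, k3, k4, k5, k6, k7, k8, k9⟩ := hcon (n + 1) (by positivity)
    exact ⟨X, exists_nd S (by linarith [n.cast_nonneg (α := ℝ)]) k1 k2 k3 k4 k5 k6 k7 k8 k9⟩
  choose X F γ ℓ u hN hno using key
  have ev : ∀ B : ℝ, ∀ᶠ n : ℕ in hyperfilter ℕ, B < n + 1 := fun B =>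
    Nat.hyperfilter_le_atTop ((tendsto_natCast_atTop_atTop.eventually_gt_atTop B).mono
      fun n k => lt_add_of_lt_of_pos k one_pos)
  have hctl : ∀ L > 0, ∀ A > 0, ∀ᶠ n : ℕ in hyperfilter ℕ, (F n).Ctl { P with L := L } A :=
    fun L L0 A A0 => ((ev A).and (ev (1 / L))).mono fun n k => (hN n).ctl' S A0 k.1.le
      ((one_div_le (by positivity) L0).2 k.2.le)
  have hb : ∀ L > 0, BU { P with L := L } (hyperfilter ℕ) F := fun L L0 =>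
    ⟨fun n => ⟨(hN n).ctl.bas, (hN n).t0, (hN n).one⟩, hctl L L0⟩
  have ok : ∀ e, min e₁ (min e₂ e₃) ≤ e → Cs.Ok { P with L := 1 / 4 } e := fun e he =>
    { hP with εe := hP.εe.trans he, L0 := by norm_num }
  obtain ⟨a₁, a1, H1⟩ := H1 { P with L := 1 / 4 } rfl (ok _ (min_le_left _ _))
  obtain ⟨a₃, a3, H3⟩ := H3 { P with L := 1 / 4 } rfl
    (ok _ ((min_le_right _ _).trans (min_le_right _ _))) (by norm_num)
  have hg : ∀ A > 0, ∀ᶠ n : ℕ in hyperfilter ℕ,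
      ∃ γ, MinGeo ((F n).g 0) (F n).U γ (2 * A) ∧ γ A = (F n).x := fun A A0 => by
    obtain ⟨K, H⟩ := H2 { P with L := 1 / 4 } rfl
      (ok _ ((min_le_right _ _).trans (min_le_left _ _))) 1 A
    obtain ⟨v, v0, H⟩ := H 0 0
    filter_upwards [ev ((A + P.C + 1) ^ 2), ev K, hctl (1 / 4) (by norm_num) v v0] with n k1 k2 k3
    exact (hN n).seg A0 ((hN n).low hP A0 k1.le) ((hN n).high A0 fun z hz =>
      (H _ _ _ _ _ k3 (hN n).dl ((hN n).base le_rfl) (hN n).one.le z hz).trans_lt k2)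
  have hd : ∀ᶠ n : ℕ in hyperfilter ℕ, (F n).δ * P.c 0 ≤ 1 / 8 := .of_forall fun n => (hN n).dl
  have ha : 0 < min a₁ a₃ := lt_min a1 a3
  rcases H1 _ ⟨ha, min_le_left _ _⟩ ℕ _ X F (hb (1 / 4) (by norm_num)) hd with k | ⟨T, k⟩
  · obtain ⟨n, φ, k1, k2⟩ := (kout_neck S hT hK (hb 1 one_pos) hP.κ0 hg k hδ).exists
    exact hno n φ k1 k2
  · exact H3 _ ⟨ha, min_le_right _ _⟩ ℕ _ X F T hb (fun n => (hN n).h1) hd hg k

theorem cutl (S : SCALE) (hC : CORE) (hR : RAT) (hB : BCA) (hL : LPX) (hT : TR) (hK : KCN) : CUTL :=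
  cutl_of S hC hB (nocap S hR hL) hT hK

end Vale.Agent.P216FI
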