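import Vale.Agent.P216LS.PoU
import Vale.Agent.P216E.Vol

/-! # P216FI: the formula of Green for compactly supported functions -/

open scoped Manifold ContDiff Topology
open Set Filter MeasureTheory

set_option maxSynthPendingDepth 3
set_option linter.unusedSectionVars false

noncomputable section

namespace Vale.Agent.P216FI

open P216R P216LS P216E
open P216ST (Sm0)
open P210.R2.H53 (gamG lapG dens)
open P210.R2.H934 (ibp_metric gamG_comm)

variable {E : Type} [NormedAddCommGroup E] [NormedSpace ℝ E] [FiniteDimensional ℝ E]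
  {M : Type} [TopologicalSpace M] [ChartedSpace E M] [IsManifold 𝓘(ℝ, E) ∞ M]
  {g : Ten E M} {U K : Set M} {f h : M → ℝ} {a x : M}

theorem lap_ld (hg : Met g U) {F : E → M} {V : Set E} (hF : LD E F V) {u : E} (hu : u ∈ V)
    (hU : F u ∈ U) (hh : SR E h (F u)) : lap g h (F u) = lapG (comap F g) (h ∘ F) u := by
  rw [← (li_comap hg hF hu hU).lap (hh.rd.of_le (by norm_cast)), lap_model]

theorem rd_lap (hg : Met g U) (hh : Sm0 E h U) {u : E} (hu : u ∈ dom E a U) :
    rd E (lap g h) a u = lapG (co g a) (rd E h a) u :=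
  lap_ld hg (ld_symm a) hu.1 hu.2 ((sm0_iff hg.isOpen).1 hh _ hu.2)

theorem rd_gam (hg : Met g U) (hf : Sm0 E f U) (hh : Sm0 E h U) {u : E} (hu : u ∈ dom E a U) :
    rd E (gam g f h) a u = gamG (co g a) (rd E f a) (rd E h a) u :=
  gam_comp hg (ld_symm a) hu.1 hu.2 ((sm0_iff hg.isOpen).1 hf _ hu.2)
    ((sm0_iff hg.isOpen).1 hh _ hu.2)

theorem sm0_lap (hg : Met g U) (hh : Sm0 E h U) : Sm0 E (lap g h) U := fun a u hu => by
  have ho := (isOpen_dom (E := E) a hg.isOpen).mem_nhds hu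
  have h1 := ((ps_const ((hg.smooth a).contDiffAt ho) univ (0 : ℝ)).lapG (mem_univ _)
    ((hg.isMetricOn a).pos u hu) (ps_const ((hh a).contDiffAt ho) _ _)).contDiffAt (mem_univ _)
  exact (h1.congr_of_eventuallyEq (mem_of_superset ho fun w hw => rd_lap hg hh hw)).contDiffWithinAt

theorem gam_zero_off (hU : IsOpen U) (hH : Hs U) (hK : IsCompact K) (hKU : K ⊆ U)
    (h0 : ∀ x ∈ U \ K, f x = 0) (hx : x ∈ U \ K) : gam g f h x = 0 := by
  have e : f =ᶠ[𝓝 x] fun _ => 0 := mem_of_superset ((hH.isOpen_diff hU hK hKU).mem_nhds hx) h0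
  rw [gam_dF, dF_congr e, dF_const]
  rfl

variable [MeasurableSpace E] [BorelSpace E] [MeasurableSpace M] [BorelSpace M]

theorem meas_cpt (hU : IsOpen U) (hH : Hs U) (hK : IsCompact K) (hKU : K ⊆ U) :
    MeasurableSet K := by
  rw [← sdiff_sdiff_cancel_left hKU]
  exact hU.measurableSet.diff (hH.isOpen_diff hU hK hKU).measurableSet

/-- continuous functions with compact support are integrable -/
theorem int_supp (hg : Met g U) (hH : Hs U) (hK : IsCompact K) (hKU : K ⊆ U)
    (hf : ContinuousOn f K) (h0 : ∀ x ∈ U \ K, f x = 0) : IntegrableOn f U (vol g) :=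
  (integrableOn_vol hg hK hKU (meas_cpt hg.isOpen hH hK hKU) hf).of_forall_sdiff_eq_zero
    hg.isOpen.measurableSet h0

theorem green_chart (hg : Met g U) (hH : Hs U) (hK : IsCompact K)
    (hKU : K ⊆ U ∩ (chartAt E a).source) (hf : Sm0 E f U) (h0 : ∀ x ∈ U \ K, f x = 0)
    (hh : Sm0 E h U) :
    ∫ x in U, f x * lap g h x ∂vol g = -∫ x in U, gam g f h x ∂vol g := by
  classical
  have hd := isOpen_dom (E := E) a hg.isOpen
  have hK' : IsCompact (chartAt E a '' K) :=
    hK.image_of_continuousOn ((chartAt E a).continuousOn.mono fun y hy => (hKU hy).2)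
  have hKd : chartAt E a '' K ⊆ dom E a U := by
    rintro _ ⟨y, hy, rfl⟩; exact mem_dom (hKU hy).2 (hKU hy).1
  set ψ := (dom E a U).indicator (rd E f a) with hψ
  have e1 : ∀ z ∈ dom E a U, ψ =ᶠ[𝓝 z] rd E f a := fun z hz =>
    mem_of_superset (hd.mem_nhds hz) fun w hw => indicator_of_mem hw _
  have e0 : ∀ z ∉ chartAt E a '' K, ψ z = 0 := fun z hz => by
    by_cases hz' : z ∈ dom E a U
    · exact (indicator_of_mem hz' _).trans
        (h0 _ ⟨hz'.2, fun hk => hz ⟨_, hk, (chartAt E a).right_inv hz'.1⟩⟩)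
    · exact indicator_of_notMem hz' _
  have hs : tsupport ψ ⊆ chartAt E a '' K :=
    closure_minimal (fun z hz => of_not_not fun hn => hz (e0 z hn)) hK'.isClosed
  have hc : HasCompactSupport ψ := hK'.of_isClosed_subset (isClosed_tsupport _) hs
  have hψs : ContDiff ℝ ∞ ψ := contDiff_iff_contDiffAt.2 fun z => by
    by_cases hz : z ∈ chartAt E a '' K
    · exact ((hf a).contDiffAt (hd.mem_nhds (hKd hz))).congr_of_eventuallyEq (e1 z (hKd hz))
    · exact contDiffAt_const.congr_of_eventuallyEq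
        (mem_of_superset (hK'.isClosed.isOpen_compl.mem_nhds hz) e0)
  obtain ⟨C, hC⟩ := hψs.lipschitzWith_of_hasCompactSupport hc (by simp)
  have hL := localRiem_iff.2 (hg.isMetricOn a)
  have key := (ibp_metric (haar E) hL (hh a) hC hc (hs.trans hKd)).2
  rw [integral_chart' hg a fun y hy hn => by rw [h0 y ⟨hy, fun hk => hn (hKU hk).2⟩, zero_mul],
    integral_chart' hg a fun y hy hn => gam_zero_off hg.isOpen hH hK (hKU.trans inter_subset_left)
      h0 ⟨hy, fun hk => hn (hKU hk).2⟩, eq_neg_iff_add_eq_zero, add_comm, ← eq_neg_iff_add_eq_zero]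
  refine (setIntegral_congr_fun hd.measurableSet fun z hz => ?_).trans (key.trans
    (congrArg _ (setIntegral_congr_fun hd.measurableSet fun z hz => ?_)))
  · rw [rd_gam hg hf hh hz, gamG_comm hL hz, gamG_congr rfl EventuallyEq.rfl (e1 z hz)]
  · rw [(e1 z hz).self_of_nhds, ← rd_lap hg hh hz]
    rfl

/-- the formula of Green, for `f` with compact support -/
theorem green_supp (hg : Met g U) (hH : Hs U) (hK : IsCompact K) (hKU : K ⊆ U) (hf : Sm0 E f U)
    (h0 : ∀ x ∈ U \ K, f x = 0) (hh : Sm0 E h U) :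
    ∫ x in U, f x * lap g h x ∂vol g = -∫ x in U, gam g f h x ∂vol g := by
  have hU := hg.isOpen
  choose! β L h1 h2 h3 h4 h5 h6 using fun x hx =>
    exists_bump_at (E := E) hU hH hx (chart_source_mem_nhds E x)
  obtain ⟨s, hs, hc⟩ := hK.elim_nhds_subcover (fun x => {y | β x y = 1}) fun x hx => h6 x (hKU hx)
  have h8 : ∀ y ∈ K, ∑ i ∈ s, β i y ≠ 0 := fun y hy => by
    obtain ⟨i, hi, e⟩ := mem_iUnion₂.1 (hc hy)
    have := Finset.single_le_sum (f := fun i => β i y) (fun i hi => (h4 i (hKU (hs i hi)) y).1) hi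
    rw [show β i y = 1 from e] at this
    linarith
  let F : M → M → ℝ := fun i y => f y * β i y / ∑ j ∈ s, β j y
  have hF : ∀ i ∈ s, Sm0 E (F i) U := fun i hi => (sm0_iff hU).2 fun y hy =>
    sr_of_supp hU hH hK hKU (V := {y | ∑ j ∈ s, β j y ≠ 0}) h8 (fun z hz =>
      (((sm0_iff hU).1 hf z hz.1).mul (h3 i (hKU (hs i hi)) z hz.1)).div₀
        (contMDiffAt_finsetSum fun j hj => h3 j (hKU (hs j hj)) z hz.1) hz.2)
      (fun z hz => by simp [F, h0 z hz]) hy
  have hF0 : ∀ i ∈ s, ∀ y ∈ U \ K, F i y = 0 := fun i _ z hz => by simp [F, h0 z hz]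
  have hS : ∀ y ∈ U, ∑ i ∈ s, F i y = f y := fun y hy => by
    by_cases hk : y ∈ K
    · rw [← Finset.sum_div, ← Finset.mul_sum, mul_div_assoc, div_self (h8 y hk), mul_one]
    · rw [Finset.sum_eq_zero fun i hi => hF0 i hi y ⟨hy, hk⟩, h0 y ⟨hy, hk⟩]
  have e1 : ∫ x in U, f x * lap g h x ∂vol g = ∫ x in U, ∑ i ∈ s, F i x * lap g h x ∂vol g :=
    setIntegral_congr_fun hU.measurableSet fun y hy => by
      simp only [← Finset.sum_mul, hS y hy]
  have e2 : ∫ x in U, gam g f h x ∂vol g = ∫ x in U, ∑ i ∈ s, gam g (F i) h x ∂vol g :=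
    setIntegral_congr_fun hU.measurableSet fun y hy => by
      have e : f =ᶠ[𝓝 y] fun z => ∑ i ∈ s, F i z :=
        mem_of_superset (hU.mem_nhds hy) fun z hz => (hS z hz).symm
      simp only [gam_dF, dF_congr e, dF_sum fun i hi => (sm0_iff hU).1 (hF i hi) y hy,
        _root_.sum_apply]
  rw [e1, e2, integral_finsetSum (f := fun i x => F i x * lap g h x) _
      fun i hi => int_supp hg hH hK hKU (((sm0_cont hU (hF i hi)).mul (sm0_cont hU (sm0_lap hg hh))).mono hKU)
      fun y hy => by rw [hF0 i hi y hy, zero_mul],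
    integral_finsetSum _ fun i hi => int_supp hg hH hK hKU
      ((sm0_cont hU (sm0_gam hg (hF i hi) hh)).mono hKU)
      fun y hy => gam_zero_off hU hH hK hKU (hF0 i hi) hy, ← Finset.sum_neg_distrib]
  exact Finset.sum_congr rfl fun i hi => green_chart hg hH (h1 i (hKU (hs i hi)))
    (h2 i (hKU (hs i hi))) (hF i hi) (fun z hz => by simp [F, h5 i (hKU (hs i hi)) z hz.2]) hh

/-- the formula of Green on a closed manifold -/
theorem green (hg : Met g U) (hc : IsCompact U) (hH : Hs U) (hf : Sm0 E f U) (hh : Sm0 E h U) :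
    ∫ x in U, f x * lap g h x ∂vol g = -∫ x in U, gam g f h x ∂vol g :=
  green_supp hg hH hc subset_rfl hf (fun _ hx => (hx.2 hx.1).elim) hh

end Vale.Agent.P216FI
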