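import Vale.Agent.P216R.Defs
import Mathlib.Analysis.InnerProductSpace.Trace

/-!
# Doubly warped metrics `e^(2a) dx² + e^(2b) dy² + dr²` on `E3`: Christoffel symbols and curvature
-/

open Set Filter Topology Real
open scoped ContDiff

set_option maxSynthPendingDepth 3

noncomputable section

namespace Vale.Agent.P216FI

open Vale.Agent.P216R Vale.Agent.P219.RG

/-- basis vectors -/
abbrev ee (i : Fin 3) : E3 := EuclideanSpace.single i 1

/-- coordinate forms -/
abbrev dx (i : Fin 3) : E3 →L[ℝ] ℝ := EuclideanSpace.proj i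

/-- `dx i ⊗ dx j` -/
def dxx (i j : Fin 3) : Bil E3 := (dx i).smulRight (dx j)

@[simp] theorem dxx_apply (i j : Fin 3) (v w : E3) : dxx i j v w = v i * w j := by simp [dxx]

theorem trace_E3 (L : E3 →ₗ[ℝ] E3) :
    LinearMap.trace ℝ E3 L = L (ee 0) 0 + L (ee 1) 1 + L (ee 2) 2 := by
  rw [LinearMap.trace_eq_sum_inner L (EuclideanSpace.basisFun (Fin 3) ℝ), Fin.sum_univ_three]
  simp [EuclideanSpace.inner_single_left]

theorem trB_diag {A : Bil E3} (hA : A.IsInvertible) {d : Fin 3 → ℝ} (hd : ∀ i, d i ≠ 0)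
    (h : ∀ v i, A v (ee i) = d i * v i) (B : Bil E3) :
    trB A B = B (ee 0) (ee 0) / d 0 + B (ee 1) (ee 1) / d 1 + B (ee 2) (ee 2) / d 2 := by
  have h1 : ∀ (φ : E3 →L[ℝ] ℝ) i, A.inverse φ i = φ (ee i) / d i := fun φ i => by
    have := h (A.inverse φ) i
    rw [hA.self_apply_inverse] at this
    rw [this, mul_div_cancel_left₀ _ (hd i)]
  unfold trB
  rw [trace_E3]
  simp only [ContinuousLinearMap.coe_coe, ContinuousLinearMap.comp_apply, h1]

theorem ricG_E3 {G : E3 → Bil E3} {U : Set E3} (h : IsMetricOn G U) {u : E3} (hu : u ∈ U)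
    (v w : E3) :
    ricG G u v w = curv G u (ee 0) v w 0 + curv G u (ee 1) v w 1 + curv G u (ee 2) v w 2 := by
  rw [ricG_apply, trL_apply, trace_E3]
  simp only [ContinuousLinearMap.coe_coe, ContinuousLinearMap.flip_apply, curvB_apply h hu]

/-- the doubly warped metric -/
def wm (a b : ℝ → ℝ) (p : E3) : Bil E3 :=
  exp (2 * a (p 2)) • dxx 0 0 + exp (2 * b (p 2)) • dxx 1 1 + dxx 2 2

theorem wm_apply (a b : ℝ → ℝ) (p v w : E3) : wm a b p v w =
    exp (2 * a (p 2)) * (v 0 * w 0) + exp (2 * b (p 2)) * (v 1 * w 1) + v 2 * w 2 := by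
  simp [wm]

/-- the slab over a set of heights -/
def slab (J : Set ℝ) : Set E3 := {p | p 2 ∈ J}

theorem isOpen_slab {J : Set ℝ} (hJ : IsOpen J) : IsOpen (slab J) :=
  hJ.preimage (dx 2).continuous

theorem E3_ne_zero {v : E3} (hv : v ≠ 0) : 0 < v 0 * v 0 ∨ 0 < v 1 * v 1 ∨ 0 < v 2 * v 2 := by
  by_contra h
  push Not at h
  refine hv (PiLp.ext fun i => ?_)
  have h0 := mul_self_eq_zero.1 (le_antisymm h.1 (mul_self_nonneg _))
  have h1 := mul_self_eq_zero.1 (le_antisymm h.2.1 (mul_self_nonneg _))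
  have h2 := mul_self_eq_zero.1 (le_antisymm h.2.2 (mul_self_nonneg _))
  fin_cases i <;> simp_all

theorem diag_pos {A B C : ℝ} (hA : 0 < A) (hB : 0 < B) (hC : 0 < C) {v : E3} (hv : v ≠ 0) :
    0 < A * (v 0 * v 0) + B * (v 1 * v 1) + C * (v 2 * v 2) := by
  have h0 := mul_nonneg hA.le (mul_self_nonneg (v 0))
  have h1 := mul_nonneg hB.le (mul_self_nonneg (v 1))
  have h2 := mul_nonneg hC.le (mul_self_nonneg (v 2))
  rcases E3_ne_zero hv with h | h | h
  · have := mul_pos hA h; linarith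
  · have := mul_pos hB h; linarith
  · have := mul_pos hC h; linarith

variable {a b : ℝ → ℝ} {J : Set ℝ}

theorem wm_isMetricOn (hJ : IsOpen J) (ha : ContDiffOn ℝ ∞ a J) (hb : ContDiffOn ℝ ∞ b J) :
    IsMetricOn (wm a b) (slab J) where
  isOpen := isOpen_slab hJ
  smooth := by
    have h2 : ContDiffOn ℝ ∞ (fun p : E3 => p 2) (slab J) := (dx 2).contDiff.contDiffOn
    have ha' := ha.comp h2 fun _ hp => hp
    have hb' := hb.comp h2 fun _ hp => hp
    exact (((contDiffOn_const.mul ha').exp.smul contDiffOn_const).add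
      ((contDiffOn_const.mul hb').exp.smul contDiffOn_const)).add contDiffOn_const
  symm := fun u _ v w => by simp only [wm_apply]; ring
  pos := fun u _ v hv => by
    have := diag_pos (exp_pos (2 * a (u 2))) (exp_pos (2 * b (u 2))) one_pos hv
    rw [wm_apply]; linarith

theorem hasFDerivAt_height {F : Type} [NormedAddCommGroup F] [NormedSpace ℝ F] {c : ℝ → F} {c' : F}
    {p : E3} (h : HasDerivAt c c' (p 2)) :
    HasFDerivAt (fun q : E3 => c (q 2)) ((dx 2).smulRight c') p := by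
  have := h.hasFDerivAt.comp p (dx 2).hasFDerivAt
  refine this.congr_fderiv ?_
  ext v; simp

theorem fderiv_wm {p : E3} {a' b' : ℝ} (ha : HasDerivAt a a' (p 2)) (hb : HasDerivAt b b' (p 2))
    (x v w : E3) : fderiv ℝ (wm a b) p x v w =
      x 2 * (2 * a' * exp (2 * a (p 2)) * (v 0 * w 0) + 2 * b' * exp (2 * b (p 2)) * (v 1 * w 1)) := by
  have h := (((ha.const_mul 2).exp.smul_const (dxx 0 0)).add
    ((hb.const_mul 2).exp.smul_const (dxx 1 1))).add_const (dxx 2 2)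
  have h1 : HasFDerivAt (wm a b) _ p := hasFDerivAt_height h
  rw [h1.fderiv]
  simp; ring

/-- the Christoffel symbols as a function of the height -/
def wc (a b : ℝ → ℝ) (v w : E3) (t : ℝ) : E3 :=
  (deriv a t * (v 0 * w 2 + v 2 * w 0)) • ee 0 + (deriv b t * (v 1 * w 2 + v 2 * w 1)) • ee 1 +
    (-(deriv a t * exp (2 * a t) * (v 0 * w 0)) - deriv b t * exp (2 * b t) * (v 1 * w 1)) • ee 2

theorem hasDerivAt_of (hJ : IsOpen J) (ha : ContDiffOn ℝ ∞ a J) {t : ℝ} (ht : t ∈ J) :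
    HasDerivAt a (deriv a t) t :=
  ((ha.contDiffAt (hJ.mem_nhds ht)).differentiableAt (by simp)).hasDerivAt

theorem hasDerivAt_deriv_of (hJ : IsOpen J) (ha : ContDiffOn ℝ ∞ a J) {t : ℝ} (ht : t ∈ J) :
    HasDerivAt (deriv a) (deriv (deriv a) t) t :=
  hasDerivAt_of hJ (ha.deriv_of_isOpen (m := ∞) hJ (by simp)) ht

theorem chris_wm (hJ : IsOpen J) (ha : ContDiffOn ℝ ∞ a J) (hb : ContDiffOn ℝ ∞ b J) {p : E3}
    (hp : p ∈ slab J) (v w : E3) : chris (wm a b) p v w = wc a b v w (p 2) := by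
  have hm := wm_isMetricOn hJ ha hb
  refine hm.ext_of hp fun z => ?_
  rw [hm.chris_spec hp]
  simp only [fderiv_wm (hasDerivAt_of hJ ha hp) (hasDerivAt_of hJ hb hp), wm_apply, wc]
  simp; ring

theorem fderiv_chris_wm (hJ : IsOpen J) (ha : ContDiffOn ℝ ∞ a J) (hb : ContDiffOn ℝ ∞ b J) {p : E3}
    (hp : p ∈ slab J) (x v w : E3) : fderiv ℝ (fun q => chris (wm a b) q v w) p x = x 2 •
      ((deriv (deriv a) (p 2) * (v 0 * w 2 + v 2 * w 0)) • ee 0 +
        (deriv (deriv b) (p 2) * (v 1 * w 2 + v 2 * w 1)) • ee 1 +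
        (-((deriv (deriv a) (p 2) + 2 * deriv a (p 2) ^ 2) * exp (2 * a (p 2)) * (v 0 * w 0)) -
          (deriv (deriv b) (p 2) + 2 * deriv b (p 2) ^ 2) * exp (2 * b (p 2)) * (v 1 * w 1)) •
          ee 2) := by
  have e : (fun q => chris (wm a b) q v w) =ᶠ[𝓝 p] fun q => wc a b v w (q 2) := by
    filter_upwards [(isOpen_slab hJ).mem_nhds hp] with q hq using chris_wm hJ ha hb hq v w
  have a1 := hasDerivAt_of hJ ha hp
  have b1 := hasDerivAt_of hJ hb hp
  have a2 := hasDerivAt_deriv_of hJ ha hp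
  have b2 := hasDerivAt_deriv_of hJ hb hp
  have h := (((a2.mul_const (v 0 * w 2 + v 2 * w 0)).smul_const (ee 0)).add
    ((b2.mul_const (v 1 * w 2 + v 2 * w 1)).smul_const (ee 1))).add
    ((((a2.mul (a1.const_mul 2).exp).mul_const (v 0 * w 0)).neg.sub
      ((b2.mul (b1.const_mul 2).exp).mul_const (v 1 * w 1))).smul_const (ee 2))
  have h1 : HasFDerivAt (fun q : E3 => wc a b v w (q 2)) _ p := hasFDerivAt_height h
  rw [e.fderiv_eq, h1.fderiv]
  simp only [ContinuousLinearMap.smulRight_apply]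
  congr 3
  ring

/-- the curvature tensor of a doubly warped metric -/
theorem curv_wm (hJ : IsOpen J) (ha : ContDiffOn ℝ ∞ a J) (hb : ContDiffOn ℝ ∞ b J) {p : E3}
    (hp : p ∈ slab J) (x y z : E3) : curv (wm a b) p x y z =
      (-(deriv a (p 2) * deriv b (p 2)) * exp (2 * b (p 2)) * ((x 0 * y 1 - x 1 * y 0) * z 1) -
        (deriv (deriv a) (p 2) + deriv a (p 2) ^ 2) * ((x 0 * y 2 - x 2 * y 0) * z 2)) • ee 0 +
      (-(deriv a (p 2) * deriv b (p 2)) * exp (2 * a (p 2)) * ((x 1 * y 0 - x 0 * y 1) * z 0) -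
        (deriv (deriv b) (p 2) + deriv b (p 2) ^ 2) * ((x 1 * y 2 - x 2 * y 1) * z 2)) • ee 1 +
      (-(deriv (deriv a) (p 2) + deriv a (p 2) ^ 2) * exp (2 * a (p 2)) *
          ((x 2 * y 0 - x 0 * y 2) * z 0) -
        (deriv (deriv b) (p 2) + deriv b (p 2) ^ 2) * exp (2 * b (p 2)) *
          ((x 2 * y 1 - x 1 * y 2) * z 1)) • ee 2 := by
  unfold curv
  rw [fderiv_chris_wm hJ ha hb hp, fderiv_chris_wm hJ ha hb hp]
  simp only [chris_wm hJ ha hb hp, wc]
  refine PiLp.ext fun i => ?_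
  fin_cases i <;> simp <;> ring

/-- the scalar curvature of a doubly warped metric -/
theorem scG_wm (hJ : IsOpen J) (ha : ContDiffOn ℝ ∞ a J) (hb : ContDiffOn ℝ ∞ b J) {p : E3}
    (hp : p ∈ slab J) : scG (wm a b) p = -2 * (deriv (deriv a) (p 2) + deriv (deriv b) (p 2) +
      deriv a (p 2) ^ 2 + deriv b (p 2) ^ 2 + deriv a (p 2) * deriv b (p 2)) := by
  have hm := wm_isMetricOn hJ ha hb
  unfold scG
  rw [trB_diag (hm.isInvertible hp) (d := ![exp (2 * a (p 2)), exp (2 * b (p 2)), 1])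
    (fun i => by fin_cases i <;> simp) (fun v i => by fin_cases i <;> simp [wm_apply])]
  simp only [ricG_E3 hm hp, curv_wm hJ ha hb hp]
  simp
  field_simp
  ring

end Vale.Agent.P216FI
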